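import Vale.Agent.P167.H208.SmTop
import Vale.Agent.P167.FKA.All

/-!
# P167, general `q`, block Q-SRSW: touching from the regularity, final form
-/

namespace Vale.Agent.P167.H208

open Vale.Agent.P167.FK Vale.Agent.P167.FKA
open Vale.Agent.P167.H519 (Rat exists_rat)

variable {Q : ℝ}

/-- Ratio mixing from RSW. -/
theorem rat_of (hQ : 1 ≤ Q) (hR : RSW Q) : ∃ L : ℤ, Rat Q L := by
  obtain ⟨α, C, hα, _, h1, h2⟩ := arm_fk hQ hR
  exact exists_rat hQ hα h1 h2

/-- **Touching at a free flat side** from the regularity for all ratio mixing factors. -/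
theorem srswt_all (hQ : 1 ≤ Q) (hR : RSW Q) (h : ∀ L : ℤ, Rat Q L → RegS Q L) : SRSWt Q := by
  obtain ⟨L, hL⟩ := rat_of hQ hR
  exact srswt_of hQ hR hL (h L hL)

end Vale.Agent.P167.H208
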