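import Vale.Agent.P167.H704.Q.Rs
import Vale.Agent.P167.QM.Defs

/-!
# P167, general `q`, block Q-SRSW: the second moment half, definitions

`x` is a site of a flat free side: the squares below the level of `x` are closed. `Am x d`: open path
from `x` to distance `d`. `ah Q L d`: its probability in a half box. `RegS`: the regularity
`1 + ∑_{d ≤ n} ah d ≤ C n ah n` (output of the parafermionic identity). `Tch x m B`: the bottom segment
of radius `m` is joined to height `m` in the box of radius `B`.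
-/

namespace Vale.Agent.P167.H208

open Finset Vale.Agent.P145.FB Vale.Agent.P153 Vale.Agent.P153.Topo Vale.Agent.P167
  Vale.Agent.P167.H632 Vale.Agent.P167.H871 Vale.Agent.P167.H704 Vale.Agent.P167.FK
  Vale.Agent.P167.FKA

/-- The half plane above the level `f`. -/
def up (f : ℤ) : Set Pt := {w | f ≤ w.2}

/-- Open path from the site `x` to distance `d`, above the level of `x`. -/
def Am (x : Pt) (d : ℤ) : Set Cfg :=
  {ω | ∃ v : Pt, d ≤ nm (v - x) ∧ PConn (op ω) (bl x d ∩ up x.2) x v}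

/-- The free flat side: in the box of radius `R` around `x` the domain is the part above the level of
`x` and the rest is closed. -/
structure Flt (D : Finset Pt) (η : Cfg) (x : Pt) (R : ℤ) : Prop where
  dom : ∀ v ∈ Bq x R, (v ∈ D ↔ x.2 ≤ v.2)
  out : ∀ v ∈ Bq x R, v ∉ D → η v = false

/-- One arm probability at a free flat side. -/
noncomputable def ah (Q : ℝ) (L d : ℤ) : ℝ := Pr Q (QM.HB (0, 0) (L * (L * d))) eta0 (Am (0, 0) d)

/-- Regularity of the one arm probabilities. -/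
def RegS (Q : ℝ) (L : ℤ) : Prop := ∃ (c : ℝ) (n0 : ℤ), 0 < c ∧ 1 ≤ n0 ∧ ∀ n : ℤ, n0 ≤ n →
  c * (1 + ∑ d ∈ Finset.Icc 1 n, ah Q L d) ≤ n * ah Q L n

/-- The bottom segment of radius `m` is joined to height `m` in the box of radius `B`. -/
def Tch (x : Pt) (m B : ℤ) : Set Cfg :=
  {ω | ∃ u t : Pt, (u.1 + u.2) % 2 = 0 ∧ u.2 = x.2 ∧ nm (u - x) ≤ m ∧ x.2 + m ≤ t.2 ∧
    PConn (op ω) (bl x B ∩ up x.2) u t}

/-- Strong RSW at a free flat side, touching form. -/
def SRSWt (Q : ℝ) : Prop := ∃ (Λ m0 : ℤ) (c : ℝ), 1 ≤ Λ ∧ 1 ≤ m0 ∧ 0 < c ∧ ∀ (x : Pt) (m : ℤ)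
  (D : Finset Pt) (η : Cfg), m0 ≤ m → (x.1 + x.2) % 2 = 0 → Good η → Flt D η x (Λ * m) →
  c ≤ Pr Q D η (Tch x m (Λ * m))

theorem Flt.mono {D : Finset Pt} {η : Cfg} {x : Pt} {R R' : ℤ} (h : Flt D η x R) (hR : R' ≤ R) :
    Flt D η x R' where
  dom v hv := h.dom v (H167.Q.bq_mono hR hv)
  out v hv := h.out v (H167.Q.bq_mono hR hv)

/-- Other sites of the side. -/
theorem Flt.shift {D : Finset Pt} {η : Cfg} {x y : Pt} {R R' : ℤ} (h : Flt D η x R)
    (hy : y.2 = x.2) (h1 : R' + nm (y - x) ≤ R) : Flt D η y R' := by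
  have hs : ∀ v ∈ Bq y R', v ∈ Bq x R := by
    intro v hv
    rw [H167.Q.mem_Bq] at hv ⊢
    have k : nm (y - x) ≤ nm (y - x) := le_rfl
    rw [nm_le] at k
    simp only [Prod.fst_sub, Prod.snd_sub] at k
    omega
  exact ⟨fun v hv => by rw [hy]; exact h.dom v (hs v hv), fun v hv => h.out v (hs v hv)⟩

/-- The state after a change inside of the domain. -/
theorem Flt.cf {D : Finset Pt} {η : Cfg} {x : Pt} {R : ℤ} (h : Flt D η x R) (S : Finset Pt) :
    Flt D (cf D η S) x R :=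
  ⟨h.dom, fun v hv hvD => by rw [cf_out hvD]; exact h.out v hv hvD⟩

theorem mem_up {f : ℤ} {w : Pt} : w ∈ up f ↔ f ≤ w.2 := Iff.rfl

/-! ### Open paths and the squares they use -/

theorem congr_reg {F G : Set Pt} {Rg : Set Pt} {u v : Pt}
    (h : ∀ a b : Pt, a ∈ Rg → b ∈ Rg → PStep F a b → PStep G a b)
    (huv : PConn F Rg u v) : PConn G Rg u v := by
  obtain ⟨h0, h1⟩ := huv
  induction h1 with
  | refl => exact PConn.refl h0
  | @tail x y hx hxy ih =>
    exact ih.tail (h x y ih.right_mem hxy.2 hxy.1) hxy.2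

theorem incC_of_reg {P : Set Pt → Prop} (hP : ∀ F G : Set Pt, F ⊆ G → P F → P G) :
    IncC true {ω : Cfg | P (op ω)} := by
  intro o o' h ho
  exact hP _ _ (fun w hw => h w hw) ho

theorem inc_Am (x : Pt) (d : ℤ) : IncC true (Am x d) := by
  rintro o o' h ⟨v, h1, h2⟩
  exact ⟨v, h1, h2.mono (fun w hw => h w hw) subset_rfl⟩

theorem inc_Tch (x : Pt) (m B : ℤ) : IncC true (Tch x m B) := by
  rintro o o' h ⟨u, t, h1, h2, h3, h4, h5⟩
  exact ⟨u, t, h1, h2, h3, h4, h5.mono (fun w hw => h w hw) subset_rfl⟩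

/-- An event about the open squares of `A`. -/
def LocE (A : Finset Pt) (E : Set Cfg) : Prop :=
  ∀ ω ω' : Cfg, (∀ v ∈ A, ω v = ω' v) → ω ∈ E → ω' ∈ E

theorem LocE.loc {A : Finset Pt} {E : Set Cfg} (h : LocE A E) : Loc A (E.indicator 1) := by
  intro ω ω' h1
  by_cases h2 : ω ∈ E
  · rw [Set.indicator_of_mem h2, Set.indicator_of_mem (h ω ω' h1 h2)]
    rfl
  · have h3 : ω' ∉ E := fun h3 => h2 (h ω' ω (fun v hv => (h1 v hv).symm) h3)
    rw [Set.indicator_of_notMem h2, Set.indicator_of_notMem h3]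

theorem LocE.inter {A : Finset Pt} {E E' : Set Cfg} (h : LocE A E) (h' : LocE A E') :
    LocE A (E ∩ E') := fun ω ω' h1 h2 => ⟨h ω ω' h1 h2.1, h' ω ω' h1 h2.2⟩

/-- An event which does not depend on the squares of `A`. -/
def IndE (A : Finset Pt) (E : Set Cfg) : Prop :=
  ∀ ω ω' : Cfg, (∀ v, v ∉ A → ω v = ω' v) → ω ∈ E → ω' ∈ E

theorem IndE.ind {A : Finset Pt} {E : Set Cfg} (h : IndE A E) : Ind A (E.indicator 1) := by
  intro ω ω' h1
  by_cases h2 : ω ∈ E
  · rw [Set.indicator_of_mem h2, Set.indicator_of_mem (h ω ω' h1 h2)]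
    rfl
  · have h3 : ω' ∉ E := fun h3 => h2 (h ω' ω (fun v hv => (h1 v hv).symm) h3)
    rw [Set.indicator_of_notMem h2, Set.indicator_of_notMem h3]

theorem IndE.inter {A : Finset Pt} {E E' : Set Cfg} (h : IndE A E) (h' : IndE A E') :
    IndE A (E ∩ E') := fun ω ω' h1 h2 => ⟨h ω ω' h1 h2.1, h' ω ω' h1 h2.2⟩

theorem IndE.mono {A B : Finset Pt} (h : A ⊆ B) {E : Set Cfg} (hE : IndE B E) : IndE A E :=
  fun ω ω' h1 h2 => hE ω ω' (fun v hv => h1 v fun hvA => hv (h hvA)) h2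

theorem LocE.indE {A B : Finset Pt} (h : Disjoint A B) {E : Set Cfg} (hE : LocE A E) : IndE B E :=
  fun ω ω' h1 h2 => hE ω ω' (fun v hv => h1 v fun hvB => (Finset.disjoint_left.1 h) hv hvB) h2

theorem LocE.mono {A B : Finset Pt} (h : A ⊆ B) {E : Set Cfg} (hE : LocE A E) : LocE B E :=
  fun ω ω' h1 h2 => hE ω ω' (fun v hv => h1 v (h hv)) h2

/-- Paths between the levels use squares between the levels. -/
theorem loc_Am (x : Pt) (d : ℤ) : LocE (QM.HB x d) (Am x d) := by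
  rintro ω ω' h ⟨v, h1, h2⟩
  refine ⟨v, h1, congr_reg (fun a b ha hb hab => ?_) h2⟩
  obtain ⟨s1, s2, s3⟩ := hab
  refine ⟨s1, s2, ?_⟩
  have ha1 := ha.1
  have hb1 := hb.1
  have ha2 : x.2 ≤ a.2 := ha.2
  have hb2 : x.2 ≤ b.2 := hb.2
  rw [mem_bl] at ha1 hb1
  show ω' _ = true
  rw [← h _ ?_]
  · exact s3
  · rw [QM.HB, Finset.mem_filter, H167.Q.mem_Bq]
    dsimp only
    omega

end Vale.Agent.P167.H208
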