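import Vale.Agent.P167.H208.SmLow

/-!
# P167, general `q`, block Q-SRSW: a path is low or visits a bulk box
-/

namespace Vale.Agent.P167.H208

open Finset Vale.Agent.P145.FB Vale.Agent.P153 Vale.Agent.P153.Topo Vale.Agent.P167
  Vale.Agent.P167.H632 Vale.Agent.P167.H871 Vale.Agent.P167.H704 Vale.Agent.P167.FK
  Vale.Agent.P167.FKA
open Vale.Agent.P167.H259 (f_markov f_fkg f_comp f_comp2 Ex_out)

variable {Q : ℝ} {D : Finset Pt} {η : Cfg}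

/-- A path visits the set `f ≥ R` or stays in `f < R`. -/
theorem dich {G Rg : Set Pt} (f : Pt → ℤ) {y y' : Pt} {R : ℤ} (h : PConn G Rg y y') :
    (∃ z, R ≤ f z ∧ PConn G Rg y z ∧ PConn G Rg z y') ∨ PConn G (Rg ∩ {w | f w < R}) y y' := by
  obtain ⟨h0, h1⟩ := h
  induction h1 with
  | refl =>
    by_cases h2 : R ≤ f y
    · exact Or.inl ⟨y, h2, PConn.refl h0, PConn.refl h0⟩
    · exact Or.inr (PConn.refl ⟨h0, not_le.1 h2⟩)
  | @tail a b ha hab ih =>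
    have hPb : PConn G Rg y b := ⟨h0, ha.tail hab⟩
    rcases ih with ⟨z, k1, k2, k3⟩ | k
    · exact Or.inl ⟨z, k1, k2, k3.tail hab.1 hab.2⟩
    · by_cases h2 : R ≤ f b
      · exact Or.inl ⟨b, h2, hPb, PConn.refl hab.2⟩
      · exact Or.inr (k.tail hab.1 ⟨hab.2, not_le.1 h2⟩)

/-- A path which stays at horizontal distance `≥ ρ` stays on its side. -/
theorem side_r {G Rg : Set Pt} {x1 ρ : ℤ} (hρ : 1 ≤ ρ) {u v : Pt} (h : PConn G Rg u v)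
    (hR : ∀ w ∈ Rg, w.1 ≤ x1 - ρ ∨ x1 + ρ ≤ w.1) (hu : x1 + ρ ≤ u.1) :
    PConn G (Rg ∩ {w | x1 + ρ ≤ w.1}) u v := by
  obtain ⟨h0, h1⟩ := h
  induction h1 with
  | refl => exact PConn.refl ⟨h0, hu⟩
  | @tail a b ha hab ih =>
    refine ih.tail hab.1 ⟨hab.2, ?_⟩
    have h2 : x1 + ρ ≤ a.1 := ih.right_mem.2
    have h3 := hab.1.1
    rcases hR b hab.2 with h4 | h4
    · omega
    · exact h4

theorem side_l {G Rg : Set Pt} {x1 ρ : ℤ} (hρ : 1 ≤ ρ) {u v : Pt} (h : PConn G Rg u v)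
    (hR : ∀ w ∈ Rg, w.1 ≤ x1 - ρ ∨ x1 + ρ ≤ w.1) (hu : u.1 ≤ x1 - ρ) :
    PConn G (Rg ∩ {w | w.1 ≤ x1 - ρ}) u v := by
  obtain ⟨h0, h1⟩ := h
  induction h1 with
  | refl => exact PConn.refl ⟨h0, hu⟩
  | @tail a b ha hab ih =>
    refine ih.tail hab.1 ⟨hab.2, ?_⟩
    have h2 : a.1 ≤ x1 - ρ := ih.right_mem.2
    have h3 := hab.1.1
    rcases hR b hab.2 with h4 | h4
    · exact h4
    · omega

/-- A low path from distance `ρ` to distance `2 ρ` crosses one of the low rectangles. -/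
theorem low_cross {G : Set Pt} {x u v : Pt} {ρ h : ℤ} (hρ : 1 ≤ ρ) (hh : h ≤ ρ)
    (huv : PConn G (an x ρ (2 * ρ) ∩ up x.2 ∩ {w | w.2 < x.2 + h}) u v)
    (hu : nm (u - x) = ρ) (hv : nm (v - x) = 2 * ρ) :
    (u.1 = x.1 + ρ ∧ v.1 = x.1 + 2 * ρ ∧ PConn G (Rect (x.1 + ρ) (x.1 + 2 * ρ) x.2 (x.2 + h)) u v) ∨
    (v.1 = x.1 - 2 * ρ ∧ u.1 = x.1 - ρ ∧
      PConn G (Rect (x.1 - 2 * ρ) (x.1 - ρ) x.2 (x.2 + h)) v u) := by
  have hfar : ∀ w ∈ an x ρ (2 * ρ) ∩ up x.2 ∩ {w : Pt | w.2 < x.2 + h},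
      w.1 ≤ x.1 - ρ ∨ x.1 + ρ ≤ w.1 := by
    rintro w ⟨⟨⟨w1, w2⟩, w3⟩, w4⟩
    simp only [up, Set.mem_ofPred_eq] at w3 w4
    rw [le_nm] at w1
    simp only [Prod.fst_sub, Prod.snd_sub] at w1
    omega
  have hul := huv.left_mem
  have hvr := huv.right_mem
  have u1 := hfar u hul
  have v1 := hfar v hvr
  have hu' := hu.le
  have hv' := hv.le
  have hv'' := hv.ge
  rw [nm_le] at hu' hv'
  rw [le_nm] at hv''
  simp only [Prod.fst_sub, Prod.snd_sub] at hu' hv' hv''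
  have v3 : x.2 ≤ v.2 := hvr.1.2
  have v4 : v.2 < x.2 + h := hvr.2
  rcases u1 with u1 | u1
  · right
    have k := side_l hρ huv hfar u1
    have kv : v.1 ≤ x.1 - ρ := k.right_mem.2
    refine ⟨by omega, by omega, k.symm.mono subset_rfl ?_⟩
    rintro w ⟨⟨⟨⟨w1, w2⟩, w3⟩, w4⟩, w5⟩
    simp only [up, Set.mem_ofPred_eq] at w3 w4 w5
    rw [nm_le] at w2
    simp only [Prod.fst_sub, Prod.snd_sub] at w2
    rw [mem_rect]
    omega
  · left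
    have k := side_r hρ huv hfar u1
    have kv : x.1 + ρ ≤ v.1 := k.right_mem.2
    refine ⟨by omega, by omega, k.mono subset_rfl ?_⟩
    rintro w ⟨⟨⟨⟨w1, w2⟩, w3⟩, w4⟩, w5⟩
    simp only [up, Set.mem_ofPred_eq] at w3 w4 w5
    rw [nm_le] at w2
    simp only [Prod.fst_sub, Prod.snd_sub] at w2
    rw [mem_rect]
    omega

/-- The low crossings between the distances `ρ` and `2 ρ`. -/
def Low (x : Pt) (ρ h : ℤ) : Set Cfg :=
  Hc true (x.1 + ρ) (x.1 + 2 * ρ) x.2 (x.2 + h) ∪ Hc true (x.1 - 2 * ρ) (x.1 - ρ) x.2 (x.2 + h)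

/-- `x` is joined to the box `(z, r)` in the half ball of radius `d`. -/
def Hit (x z : Pt) (r d : ℤ) : Set Cfg :=
  {ω | ∃ u : Pt, nm (u - z) ≤ r ∧ PConn (op ω) (bl x d ∩ up x.2) x u}

/-- The box `(z, r)` is joined to distance `m` of `x`. -/
def Out (x z : Pt) (r m : ℤ) : Set Cfg :=
  {ω | ∃ u v : Pt, (u.1 + u.2) % 2 = 0 ∧ nm (u - z) ≤ r ∧ m ≤ nm (v - x) ∧
    PConn (op ω) (bl x m ∩ up x.2) u v}

/-- Crossing of the half annulus. -/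
def Cr (x : Pt) (ρ m : ℤ) : Set Cfg :=
  {ω | ∃ u v : Pt, (u.1 + u.2) % 2 = 0 ∧ nm (u - x) = ρ ∧ m ≤ nm (v - x) ∧
    PConn (op ω) (an x ρ m ∩ up x.2) u v}

/-- The sites of the grid. -/
def gr (x : Pt) (h r : ℤ) (p : ℤ × ℤ) : Pt := (x.1 + p.1 * r, x.2 + h + p.2 * r)

/-- The index set of the grid. -/
noncomputable def gI (J : ℤ) : Finset (ℤ × ℤ) := Finset.Icc (-J) J ×ˢ Finset.Icc 0 J

theorem exists_gr {x p : Pt} {h r J ρ : ℤ} (hr : 1 ≤ r) (hJ : 2 * ρ ≤ J * r) (hh : 0 ≤ h)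
    (hp : nm (p - x) ≤ 2 * ρ) (hp' : x.2 + h ≤ p.2) : ∃ j ∈ gI J, nm (p - gr x h r j) ≤ r := by
  rw [nm_le] at hp
  simp only [Prod.fst_sub, Prod.snd_sub] at hp
  obtain ⟨a, ha⟩ : ∃ a, a = (p.1 - x.1) / r := ⟨_, rfl⟩
  obtain ⟨b, hb⟩ : ∃ b, b = (p.2 - (x.2 + h)) / r := ⟨_, rfl⟩
  have a1 : a * r ≤ p.1 - x.1 := by rw [ha]; exact Int.ediv_mul_le _ (by omega)
  have a2 : p.1 - x.1 < (a + 1) * r := by rw [ha]; exact Int.lt_ediv_add_one_mul_self _ (by omega)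
  have b1 : b * r ≤ p.2 - (x.2 + h) := by rw [hb]; exact Int.ediv_mul_le _ (by omega)
  have b2 : p.2 - (x.2 + h) < (b + 1) * r := by
    rw [hb]; exact Int.lt_ediv_add_one_mul_self _ (by omega)
  have b0 : 0 ≤ b := by rw [hb]; exact Int.ediv_nonneg (by omega) (by omega)
  refine ⟨(a, b), ?_, ?_⟩
  · rw [gI, Finset.mem_product, Finset.mem_Icc, Finset.mem_Icc]
    refine ⟨⟨?_, ?_⟩, b0, ?_⟩
    · by_contra hc
      have : a + 1 ≤ -J := by dsimp only at hc; omega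
      nlinarith
    · by_contra hc
      have : J + 1 ≤ a := by dsimp only at hc; omega
      nlinarith
    · by_contra hc
      have : J + 1 ≤ b := by dsimp only at hc; omega
      nlinarith
  · rw [nm_le]
    simp only [gr, Prod.fst_sub, Prod.snd_sub]
    refine ⟨by linarith, by nlinarith, by linarith, by nlinarith⟩

/-- **An arm is low between `ρ` and `2 ρ` or visits a bulk box.** -/
theorem cov1 {x : Pt} {ρ h r J : ℤ} (hρ : 1 ≤ ρ) (hh0 : 0 ≤ h) (hh : h ≤ ρ) (hr : 1 ≤ r)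
    (hJ : 2 * ρ ≤ J * r) {ω : Cfg} (hx : (x.1 + x.2) % 2 = 0) (hω : ω ∈ Am x (2 * ρ)) :
    (∃ j ∈ gI J, ω ∈ Hit x (gr x h r j) r (2 * ρ)) ∨ (ω ∈ Am x ρ ∧ ω ∈ Low x ρ h) := by
  obtain ⟨v, h1, h2⟩ := hω
  rcases dich (fun w => w.2) (R := x.2 + h) h2 with ⟨z, k1, k2, k3⟩ | k
  · left
    obtain ⟨j, hj, hj'⟩ := exists_gr hr hJ hh0 k2.right_mem.1 k1
    exact ⟨j, hj, z, hj', k2⟩
  · right
    have hxx : nm (x - x) = 0 := by rw [sub_self]; rfl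
    obtain ⟨z, z', m1, m2, m3, m4, m5⟩ := crossing (b := x) (r := ρ) (R := 2 * ρ) (by omega) k
      (by rw [hxx]; omega) h1
    constructor
    · obtain ⟨y, n1, n2, n3⟩ := first_exit (b := x) (R := ρ) h2 (by rw [hxx]; omega) (by omega)
      refine ⟨y, n1.ge, n2.mono subset_rfl ?_⟩
      rintro w ⟨⟨w1, w2⟩, w3⟩
      exact ⟨w3, w2⟩
    · have m4' : PConn (op ω) (an x ρ (2 * ρ) ∩ up x.2 ∩ {w | w.2 < x.2 + h}) z z' := by
        refine m4.mono subset_rfl ?_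
        rintro w ⟨⟨⟨w1, w2⟩, w3⟩, w4⟩
        exact ⟨⟨w4, w2⟩, w3⟩
      have hz : (z.1 + z.2) % 2 = 0 := by rw [← m3.parity, hx]
      have hz' : (z'.1 + z'.2) % 2 = 0 := by rw [← m4.parity, hz]
      rcases low_cross hρ hh m4' m1 m2 with ⟨n1, n2, n3⟩ | ⟨n1, n2, n3⟩
      · exact Or.inl ⟨z, z', n1, n2, by simpa [pr] using hz, by rw [cs_true]; exact n3⟩
      · exact Or.inr ⟨z', z, n1, n2, by simpa [pr] using hz', by rw [cs_true]; exact n3⟩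

/-- **A crossing is low between `ρ` and `2 ρ` or visits a bulk box.** -/
theorem cov2 {x : Pt} {ρ h r J m : ℤ} (hρ : 1 ≤ ρ) (hh0 : 0 ≤ h) (hh : h ≤ ρ) (hr : 1 ≤ r)
    (hJ : 2 * ρ ≤ J * r) (hm : 2 * ρ ≤ m) {ω : Cfg} (hω : ω ∈ Cr x ρ m) :
    (∃ j ∈ gI J, ω ∈ Out x (gr x h r j) r m) ∨ (ω ∈ Cr x (2 * ρ) m ∧ ω ∈ Low x ρ h) := by
  obtain ⟨u, v, h0, h1, h2, h3⟩ := hω
  obtain ⟨z', m1, m2, m3⟩ := first_exit (b := x) (R := 2 * ρ) h3 (by omega) (by omega)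
  rcases dich (fun w => w.2) (R := x.2 + h) m2 with ⟨z, k1, k2, k3⟩ | k
  · left
    obtain ⟨j, hj, hj'⟩ := exists_gr hr hJ hh0 k2.right_mem.2 k1
    refine ⟨j, hj, z, v, by rw [← k2.parity, h0], hj', h2, ?_⟩
    have k4 : PConn (op ω) (an x ρ m ∩ up x.2) z v :=
      (k3.mono subset_rfl Set.inter_subset_left).trans m3
    refine k4.mono subset_rfl ?_
    rintro w ⟨w1, w2⟩
    exact ⟨w1.2, w2⟩
  · right
    constructor
    · obtain ⟨y, n1, n2, n3⟩ := last_visit (b := x) (r := 2 * ρ) h3 (by omega) (by omega)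
      refine ⟨y, v, by rw [← n2.parity, h0], n1, h2, n3.mono subset_rfl ?_⟩
      rintro w ⟨⟨w1, w2⟩, w3⟩
      exact ⟨⟨w3, w1.2⟩, w2⟩
    · have m4' : PConn (op ω) (an x ρ (2 * ρ) ∩ up x.2 ∩ {w | w.2 < x.2 + h}) u z' := by
        refine k.mono subset_rfl ?_
        rintro w ⟨⟨⟨w1, w2⟩, w3⟩, w4⟩
        exact ⟨⟨⟨w1.1, w3⟩, w2⟩, w4⟩
      have hz' : (z'.1 + z'.2) % 2 = 0 := by rw [← m2.parity, h0]
      rcases low_cross hρ hh m4' h1 m1 with ⟨n1, n2, n3⟩ | ⟨n1, n2, n3⟩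
      · exact Or.inl ⟨u, z', n1, n2, by simpa [pr] using h0, by rw [cs_true]; exact n3⟩
      · exact Or.inr ⟨z', u, n1, n2, by simpa [pr] using hz', by rw [cs_true]; exact n3⟩

/-! ### Monotonicity and locality -/

theorem inc_Hit (x z : Pt) (r d : ℤ) : IncC true (Hit x z r d) := by
  rintro o o' h ⟨v, h1, h2⟩
  exact ⟨v, h1, h2.mono (fun w hw => h w hw) subset_rfl⟩

theorem inc_Out (x z : Pt) (r m : ℤ) : IncC true (Out x z r m) := by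
  rintro o o' h ⟨u, v, h0, h1, h2, h3⟩
  exact ⟨u, v, h0, h1, h2, h3.mono (fun w hw => h w hw) subset_rfl⟩

theorem inc_Cr (x : Pt) (ρ m : ℤ) : IncC true (Cr x ρ m) := by
  rintro o o' h ⟨u, v, h0, h1, h2, h3⟩
  exact ⟨u, v, h0, h1, h2, h3.mono (fun w hw => h w hw) subset_rfl⟩

/-- The crossing of the half annulus does not depend on the inner box. -/
theorem ind_Cr (x : Pt) (ρ m : ℤ) : IndE (Bq x (ρ - 1)) (Cr x ρ m) := by
  rintro ω ω' h ⟨u, v, h0, h1, h2, h3⟩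
  refine ⟨u, v, h0, h1, h2, congr_reg (fun a b ha hb hab => ?_) h3⟩
  obtain ⟨s1, s2, s3⟩ := hab
  refine ⟨s1, s2, ?_⟩
  show ω' _ = true
  rw [← h _ ?_]
  · exact s3
  · intro hc
    rw [H167.Q.mem_Bq] at hc
    have ha1 := ha.1.1
    rw [le_nm] at ha1
    simp only [Prod.fst_sub, Prod.snd_sub] at ha1
    dsimp only at hc
    omega

theorem am_anti {x : Pt} {d d' : ℤ} (hd : 0 ≤ d) (h : d ≤ d') : Am x d' ⊆ Am x d := by
  rintro ω ⟨v, h1, h2⟩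
  have hxx : nm (x - x) = 0 := by rw [sub_self]; rfl
  obtain ⟨y, n1, n2, n3⟩ := first_exit (b := x) (R := d) h2 (by rw [hxx]; omega) (by omega)
  refine ⟨y, n1.ge, n2.mono subset_rfl ?_⟩
  rintro w ⟨⟨w1, w2⟩, w3⟩
  exact ⟨w3, w2⟩

end Vale.Agent.P167.H208
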