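import Vale.Agent.P167.H208.SmStep

/-!
# P167, general `q`, block Q-SRSW: gluing in the bulk
-/

namespace Vale.Agent.P167.H208

open Finset Vale.Agent.P145.FB Vale.Agent.P153 Vale.Agent.P153.Topo Vale.Agent.P167
  Vale.Agent.P167.H632 Vale.Agent.P167.H871 Vale.Agent.P167.H704 Vale.Agent.P167.FK
  Vale.Agent.P167.FKA
open Vale.Agent.P167.H259 (f_markov f_fkg f_comp f_comp2 Ex_out)

variable {Q : ℝ} {D : Finset Pt} {η : Cfg}

namespace Cs

variable {C : Cs Q} {K : ℕ} {x : Pt} {ρ m : ℤ}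

/-- **Gluing** of a path from `x` to a bulk box and a path from a bulk box to distance `m`. -/
theorem glue3 (N : C.Num K ρ) (hη : Good η) (hm : 8 * ρ ≤ m) (hF : Flt D η x m)
    (hx : (x.1 + x.2) % 2 = 0) {j j' : ℤ × ℤ} (hj : j ∈ gI (C.JJ K)) (hj' : j' ∈ gI (C.JJ K)) :
    Pr Q D η (Hit x (gr x (C.ht K ρ) (C.rr K ρ) j) (C.rr K ρ) (2 * ρ)) *
      Pr Q D η (Out x (gr x (C.ht K ρ) (C.rr K ρ) j') (C.rr K ρ) m) *
      C.cL ^ (2 * (C.JJ K).toNat + 1) ≤ Pr Q D η (Am x m) := by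
  have hQ := C.hQ
  have hQ0 := C.hQ0
  have hcL := C.hcL
  obtain ⟨r, hr⟩ : ∃ r, r = C.rr K ρ := ⟨_, rfl⟩
  obtain ⟨s, hs⟩ : ∃ s, s = C.ht K ρ := ⟨_, rfl⟩
  obtain ⟨J, hJ⟩ : ∃ J, J = C.JJ K := ⟨_, rfl⟩
  obtain ⟨R, hR⟩ : ∃ R, R = C.K0 * (2 * r + 1) := ⟨_, rfl⟩
  have n1 := N.hr
  have n2 := N.hr1
  have n3 := N.hsρ
  have n4 := N.hJ'
  have n5 := N.hR
  have n6 := N.hR1
  have n7 := N.hρ
  rw [← hr] at n1 n2 n4 n5 n6
  rw [← hR] at n5 n6
  rw [← hs] at n3 n5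
  rw [← hJ] at n4 hj hj'
  rw [← hr, ← hs, ← hJ]
  rw [gI, Finset.mem_product, Finset.mem_Icc, Finset.mem_Icc] at hj hj'
  obtain ⟨⟨j1, j2⟩, j3, j4⟩ := hj
  obtain ⟨⟨k1, k2⟩, k3, k4⟩ := hj'
  have hJ0 : 0 ≤ J := j3.trans j4
  have b1 : -(J * r) ≤ j.1 * r ∧ j.1 * r ≤ J * r := ⟨by nlinarith, by nlinarith⟩
  have b2 : 0 ≤ j.2 * r ∧ j.2 * r ≤ J * r := ⟨by positivity, by nlinarith⟩
  have b3 : -(J * r) ≤ j'.1 * r ∧ j'.1 * r ≤ J * r := ⟨by nlinarith, by nlinarith⟩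
  have b4 : 0 ≤ j'.2 * r ∧ j'.2 * r ≤ J * r := ⟨by positivity, by nlinarith⟩
  set z : ℕ → Pt := chn (gr x s r j) (j'.1 - j.1) (j'.2 - j.2) r with hz
  set n : ℕ := 2 * J.toNat with hn
  have hnJ : (n : ℤ) = 2 * J := by
    rw [hn]; push_cast; rw [Int.toNat_of_nonneg hJ0]
  have z0 : z 0 = gr x s r j := chn_zero _ _ _ _
  have zn : z n = gr x s r j' := by
    rw [hz, chn_last (n := n) (by rw [abs_le, hnJ]; omega) (by rw [abs_le, hnJ]; omega)]
    refine Prod.ext ?_ ?_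
    · simp only [gr]; ring
    · simp only [gr]; ring
  have zb : ∀ i, x.1 - J * r ≤ (z i).1 ∧ (z i).1 ≤ x.1 + J * r ∧ x.2 + s ≤ (z i).2 ∧
      (z i).2 ≤ x.2 + s + J * r := by
    intro i
    obtain ⟨m1, m2, m3, m4⟩ := chn_mem (z := gr x s r j) (J := j'.1 - j.1) (J' := j'.2 - j.2)
      (r := r) (by omega) i
    rw [← hz] at m1 m2 m3 m4
    have e1 : (gr x s r j).1 = x.1 + j.1 * r := rfl
    have e2 : (gr x s r j).2 = x.2 + s + j.2 * r := rfl
    have e3 : (gr x s r j).1 + (j'.1 - j.1) * r = x.1 + j'.1 * r := by rw [e1]; ring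
    have e4 : (gr x s r j).2 + (j'.2 - j.2) * r = x.2 + s + j'.2 * r := by rw [e2]; ring
    rw [e3, e1] at m1 m2
    rw [e4, e2] at m3 m4
    refine ⟨?_, ?_, ?_, ?_⟩
    · exact le_trans (le_min (by omega) (by omega)) m1
    · exact m2.trans (max_le (by omega) (by omega))
    · exact le_trans (le_min (by omega) (by omega)) m3
    · exact m4.trans (max_le (by omega) (by omega))
  have hch := chain_ge (Q := Q) (D := D) (η := η) hQ hη (z := z) (r := r) (R := R) hcL.le n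
    (fun i _ => by
      rw [hR]
      refine C.lnk (z i) r D η n1 hη ?_
      rw [← hR]
      intro v hv
      have h1 := zb i
      rw [H167.Q.mem_Bq] at hv
      refine (hF.dom v ?_).2 (by omega)
      rw [H167.Q.mem_Bq]
      omega)
  have f1 := H704.Q.prC_inter (e := true) (Q := Q) (D := D) (η := η) hQ hη
    (inc_Hit x (gr x s r j) r (2 * ρ)) (inc_Out x (gr x s r j') r m)
  have f2 := H704.Q.prC_inter (e := true) (Q := Q) (D := D) (η := η) hQ hη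
    ((inc_Hit x (gr x s r j) r (2 * ρ)).inter (inc_Out x (gr x s r j') r m)) hch.1
  calc Pr Q D η (Hit x (gr x s r j) r (2 * ρ)) * Pr Q D η (Out x (gr x s r j') r m) *
        C.cL ^ (n + 1)
      ≤ Pr Q D η (Hit x (gr x s r j) r (2 * ρ) ∩ Out x (gr x s r j') r m) *
        Pr Q D η {ω | ∀ i ≤ n, ω ∈ Lnk (z i) r R} :=
        mul_le_mul f1 hch.2 (by positivity) (Pr_nonneg hQ0 _)
    _ ≤ Pr Q D η (Hit x (gr x s r j) r (2 * ρ) ∩ Out x (gr x s r j') r m ∩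
        {ω | ∀ i ≤ n, ω ∈ Lnk (z i) r R}) := f2
    _ ≤ Pr Q D η (Am x m) := by
        refine Pr_mono hQ0 ?_
        rintro ω ⟨⟨⟨u, hu, hxu⟩, ⟨u', v, hu'p, hu', hv, huv⟩⟩, hL⟩
        refine ⟨v, hv, ?_⟩
        have e1 : (gr x s r j).1 = x.1 + j.1 * r := rfl
        have e2 : (gr x s r j).2 = x.2 + s + j.2 * r := rfl
        have e3 : (gr x s r j').1 = x.1 + j'.1 * r := rfl
        have e4 : (gr x s r j').2 = x.2 + s + j'.2 * r := rfl
        refine chain_glue2 (z := z) (n := n) n2 n6 (fun i => chn_step (by omega) i) hL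
          (Rg := bl x m ∩ up x.2) (fun i _ w hw => ?_) hx
          (hxu.mono subset_rfl ?_) (by rw [z0]; exact hu) ?_ hu'p huv (by rw [zn]; exact hu') ?_
        · have h1 := zb i
          rw [mem_bl] at hw
          refine ⟨?_, ?_⟩
          · rw [mem_bl]; omega
          · rw [mem_up]; omega
        · rintro w ⟨w1, w2⟩
          refine ⟨?_, w2⟩
          rw [mem_bl] at w1 ⊢
          omega
        · rw [z0, le_nm]
          simp only [Prod.fst_sub, Prod.snd_sub]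
          omega
        · rw [zn, le_nm]
          rw [le_nm] at hv
          simp only [Prod.fst_sub, Prod.snd_sub] at hv ⊢
          omega

/-- `x` is joined to height `m` in the half ball of radius `B`. -/
def _root_.Vale.Agent.P167.H208.Hgt (x : Pt) (m B : ℤ) : Set Cfg :=
  {ω | ∃ t : Pt, x.2 + m ≤ t.2 ∧ PConn (op ω) (bl x B ∩ up x.2) x t}

/-- **Gluing** of a path from `x` to a bulk box with a chain to height `m`. -/
theorem glue4 (N : C.Num K ρ) (hη : Good η) {n : ℕ} (hn : m + C.rr K ρ ≤ n * C.rr K ρ) {B : ℤ}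
    (hB : n * C.rr K ρ + 8 * ρ ≤ B) (hF : Flt D η x B) (hx : (x.1 + x.2) % 2 = 0) {j : ℤ × ℤ}
    (hj : j ∈ gI (C.JJ K)) :
    Pr Q D η (Hit x (gr x (C.ht K ρ) (C.rr K ρ) j) (C.rr K ρ) (2 * ρ)) *
      C.cL ^ (n + 1) ≤ Pr Q D η (Hgt x m B) := by
  have hQ := C.hQ
  have hQ0 := C.hQ0
  have hcL := C.hcL
  obtain ⟨r, hr⟩ : ∃ r, r = C.rr K ρ := ⟨_, rfl⟩
  obtain ⟨s, hs⟩ : ∃ s, s = C.ht K ρ := ⟨_, rfl⟩
  obtain ⟨J, hJ⟩ : ∃ J, J = C.JJ K := ⟨_, rfl⟩
  obtain ⟨R, hR⟩ : ∃ R, R = C.K0 * (2 * r + 1) := ⟨_, rfl⟩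
  have n1 := N.hr
  have n2 := N.hr1
  have n3 := N.hsρ
  have n4 := N.hJ'
  have n5 := N.hR
  have n6 := N.hR1
  have n7 := N.hρ
  rw [← hr] at n1 n2 n4 n5 n6 hn hB
  rw [← hR] at n5 n6
  rw [← hs] at n3 n5
  rw [← hJ] at n4 hj
  rw [← hr, ← hs]
  rw [gI, Finset.mem_product, Finset.mem_Icc, Finset.mem_Icc] at hj
  obtain ⟨⟨j1, j2⟩, j3, j4⟩ := hj
  have hJ0 : 0 ≤ J := j3.trans j4
  have b1 : -(J * r) ≤ j.1 * r ∧ j.1 * r ≤ J * r := ⟨by nlinarith, by nlinarith⟩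
  have b2 : 0 ≤ j.2 * r ∧ j.2 * r ≤ J * r := ⟨by positivity, by nlinarith⟩
  set z : ℕ → Pt := chn (gr x s r j) 0 n r with hz
  have hn0 : (0 : ℤ) ≤ n * r := by positivity
  have z0 : z 0 = gr x s r j := chn_zero _ _ _ _
  have zn : z n = (x.1 + j.1 * r, x.2 + s + j.2 * r + n * r) := by
    rw [hz, chn_last (n := n) (by rw [abs_zero]; positivity) (by rw [Nat.abs_cast])]
    refine Prod.ext ?_ ?_
    · simp only [gr]; ring
    · simp only [gr]
  have zb : ∀ i, x.1 - J * r ≤ (z i).1 ∧ (z i).1 ≤ x.1 + J * r ∧ x.2 + s ≤ (z i).2 ∧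
      (z i).2 ≤ x.2 + s + J * r + n * r := by
    intro i
    obtain ⟨m1, m2, m3, m4⟩ := chn_mem (z := gr x s r j) (J := 0) (J' := n)
      (r := r) (by omega) i
    rw [← hz] at m1 m2 m3 m4
    have e1 : (gr x s r j).1 = x.1 + j.1 * r := rfl
    have e2 : (gr x s r j).2 = x.2 + s + j.2 * r := rfl
    rw [zero_mul, add_zero, min_self, e1] at m1
    rw [zero_mul, add_zero, max_self, e1] at m2
    rw [e2] at m3 m4
    refine ⟨by omega, by omega, ?_, ?_⟩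
    · exact le_trans (le_min (by omega) (by omega)) m3
    · exact m4.trans (max_le (by omega) (by omega))
  have hch := chain_ge (Q := Q) (D := D) (η := η) hQ hη (z := z) (r := r) (R := R) hcL.le n
    (fun i _ => by
      rw [hR]
      refine C.lnk (z i) r D η n1 hη ?_
      rw [← hR]
      intro v hv
      have h1 := zb i
      rw [H167.Q.mem_Bq] at hv
      refine (hF.dom v ?_).2 (by omega)
      rw [H167.Q.mem_Bq]
      omega)
  have f1 := H704.Q.prC_inter (e := true) (Q := Q) (D := D) (η := η) hQ hη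
    (inc_Hit x (gr x s r j) r (2 * ρ)) hch.1
  refine (mul_le_mul_of_nonneg_left hch.2 (Pr_nonneg hQ0 _)).trans (f1.trans ?_)
  refine Pr_mono hQ0 ?_
  rintro ω ⟨⟨u, hu, hxu⟩, hL⟩
  have e1 : (gr x s r j).1 = x.1 + j.1 * r := rfl
  have e2 : (gr x s r j).2 = x.2 + s + j.2 * r := rfl
  obtain ⟨y, y1, g1, g2, g3, g4, g5⟩ := chain_glue (z := z) (n := n) n2 n6
    (fun i => chn_step (by omega) i) hL
    (Rg := bl x B ∩ up x.2) (fun i _ w hw => by
      have h1 := zb i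
      rw [mem_bl] at hw
      refine ⟨?_, ?_⟩
      · rw [mem_bl]; omega
      · rw [mem_up]; omega) hx
    (hxu.mono subset_rfl (by
      rintro w ⟨w1, w2⟩
      refine ⟨?_, w2⟩
      rw [mem_bl] at w1 ⊢
      omega)) (by rw [z0]; exact hu) (by
      rw [z0, le_nm]
      simp only [Prod.fst_sub, Prod.snd_sub]
      omega) n le_rfl
  refine ⟨y, ?_, g5⟩
  rw [zn, nm_le] at g2
  simp only [Prod.fst_sub, Prod.snd_sub] at g2
  omega

end Cs

end Vale.Agent.P167.H208
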