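import Vale.Agent.P167.H208.SmGlue
import Vale.Agent.P167.FKA.Wir

/-!
# P167, general `q`, block Q-SRSW: comparison of laws, doubling, the iteration
-/

namespace Vale.Agent.P167.H208

open Finset Vale.Agent.P145.FB Vale.Agent.P153 Vale.Agent.P153.Topo Vale.Agent.P167
  Vale.Agent.P167.H632 Vale.Agent.P167.H871 Vale.Agent.P167.H704 Vale.Agent.P167.FK
  Vale.Agent.P167.FKA
open Vale.Agent.P167.H259 (f_markov f_fkg f_comp f_comp2 Ex_out)
open Vale.Agent.P167.H519 (Rat)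

variable {Q : ℝ} {D : Finset Pt} {η : Cfg}

/-! ### Translation -/

theorem pconn_sh {ω : Cfg} {p : Pt} {Rg Rg' : Set Pt} {u v : Pt} (h : PConn (op ω) Rg u v)
    (hR : ∀ w ∈ Rg, (w.1 - p.1, w.2 - p.2) ∈ Rg') :
    PConn (op (ω ∘ fun v => (v.1 + p.1, v.2 + p.2))) Rg' (u.1 - p.1, u.2 - p.2)
      (v.1 - p.1, v.2 - p.2) := by
  obtain ⟨h0, h1⟩ := h
  induction h1 with
  | refl => exact PConn.refl (hR _ h0)
  | @tail a b ha hab ih =>
    refine ih.tail ⟨?_, ?_, ?_⟩ (hR _ hab.2)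
    · have := hab.1.1; dsimp only; omega
    · have := hab.1.2.1; dsimp only; omega
    · have h5 : ω (min a.1 b.1, min a.2 b.2) = true := hab.1.2.2
      show ω _ = true
      rw [← h5]
      congr 1
      ext <;> dsimp only <;> omega

/-- The arm probability of `ah` around any site of the right parity. -/
theorem ah_eq (hQ : 1 ≤ Q) {L d : ℤ} {x : Pt} (hx : (x.1 + x.2) % 2 = 0) :
    ah Q L d = Pr Q (QM.HB x (L * (L * d))) eta0 (Am x d) := by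
  have hQ0 : 0 < Q := by linarith
  obtain ⟨R, hR⟩ : ∃ R, R = L * (L * d) := ⟨_, rfl⟩
  have h1 := (sy_tr x (Int.even_iff.2 hx)).2 Q (QM.HB (0, 0) R) eta0 ((Am (0, 0) d).indicator 1) hQ0
    f_good.2.1
  have e : (QM.HB (0, 0) R).image (fun v : ℤ × ℤ => (v.1 + x.1, v.2 + x.2)) = QM.HB x R := by
    ext v
    rw [Finset.mem_image]
    constructor
    · rintro ⟨w, hw, rfl⟩
      simp only [QM.HB, Finset.mem_filter, H167.Q.mem_Bq] at hw ⊢
      omega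
    · intro hv
      refine ⟨(v.1 - x.1, v.2 - x.2), ?_, by simp⟩
      simp only [QM.HB, Finset.mem_filter, H167.Q.mem_Bq] at hv ⊢
      omega
  rw [e] at h1
  have e2 : (fun ω : Cfg => (Am (0, 0) d).indicator (1 : Cfg → ℝ)
      (ω ∘ fun v => (v.1 + x.1, v.2 + x.2))) = (Am x d).indicator 1 := by
    funext ω
    have key : (ω ∘ fun v => (v.1 + x.1, v.2 + x.2)) ∈ Am (0, 0) d ↔ ω ∈ Am x d := by
      constructor
      · rintro ⟨v, k1, k2⟩
        have k3 := pconn_sh (p := (-x.1, -x.2)) (Rg' := bl x d ∩ up x.2) k2 (by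
          rintro w ⟨w1, w2⟩
          rw [mem_bl] at w1
          rw [mem_up] at w2
          dsimp only at w1 w2 ⊢
          refine ⟨?_, ?_⟩
          · rw [mem_bl]; dsimp only; omega
          · rw [mem_up]; dsimp only; omega)
        have e3 : ((ω ∘ fun v : ℤ × ℤ => (v.1 + x.1, v.2 + x.2)) ∘
            fun v : ℤ × ℤ => (v.1 + (-x.1, -x.2).1, v.2 + (-x.1, -x.2).2)) = ω := by
          funext v
          simp only [Function.comp]
          congr 1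
          ext <;> dsimp only <;> omega
        rw [e3] at k3
        refine ⟨(v.1 - -x.1, v.2 - -x.2), ?_, ?_⟩
        · rw [le_nm] at k1 ⊢
          simp only [Prod.fst_sub, Prod.snd_sub] at k1 ⊢
          omega
        · have e4 : (((0, 0) : ℤ × ℤ).1 - (-x.1, -x.2).1, ((0, 0) : ℤ × ℤ).2 - (-x.1, -x.2).2) = x := by
            ext <;> simp
          rw [e4] at k3
          exact k3
      · rintro ⟨v, k1, k2⟩
        have k3 := pconn_sh (p := x) (Rg' := bl (0, 0) d ∩ up (0, 0).2) k2 (by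
          rintro w ⟨w1, w2⟩
          rw [mem_bl] at w1
          rw [mem_up] at w2
          refine ⟨?_, ?_⟩
          · rw [mem_bl]; dsimp only; omega
          · rw [mem_up]; dsimp only; omega)
        refine ⟨(v.1 - x.1, v.2 - x.2), ?_, ?_⟩
        · rw [le_nm] at k1 ⊢
          simp only [Prod.fst_sub, Prod.snd_sub] at k1 ⊢
          omega
        · have e4 : (x.1 - x.1, x.2 - x.2) = ((0, 0) : ℤ × ℤ) := by simp
          rw [e4] at k3
          exact k3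
    by_cases h : ω ∈ Am x d
    · rw [Set.indicator_of_mem h, Set.indicator_of_mem (key.2 h)]
      rfl
    · rw [Set.indicator_of_notMem h, Set.indicator_of_notMem (fun h' => h (key.1 h'))]
  rw [e2] at h1
  unfold ah Pr
  rw [← hR]
  have e5 : (eta0 ∘ fun v : ℤ × ℤ => (v.1 + x.1, v.2 + x.2)) = eta0 := rfl
  rw [e5] at h1
  exact h1

/-- **Comparison of laws.** -/
theorem cmp_ah (hQ : 1 ≤ Q) {L : ℤ} (hL : Rat Q L) {d : ℤ} (hd : 1 ≤ d) {x : Pt}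
    (hx : (x.1 + x.2) % 2 = 0) (hη : Good η) (hF : Flt D η x (L * (L * d))) :
    Pr Q D η (Am x d) ≤ 8 * ah Q L d ∧ ah Q L d ≤ 8 * Pr Q D η (Am x d) := by
  have hL2 := hL.1
  obtain ⟨R, hR⟩ : ∃ R, R = L * (L * d) := ⟨_, rfl⟩
  have hdR : d ≤ R := (H192.Q.scale_le hL hd hR.ge).1.trans (H192.Q.scale_le hL hd hR.ge).2
  rw [ah_eq hQ hx]
  rw [← hR] at hF ⊢
  have hDD : D ∩ Bq x R = QM.HB x R ∩ Bq x R := by
    ext v
    simp only [Finset.mem_inter, QM.HB, Finset.mem_filter]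
    constructor
    · rintro ⟨h1, h2⟩
      exact ⟨⟨h2, (hF.dom v h2).1 h1⟩, h2⟩
    · rintro ⟨⟨h1, h2⟩, h3⟩
      exact ⟨(hF.dom v h3).2 h2, h3⟩
  have hV1 : QM.HB x d ⊆ D := by
    intro v hv
    rw [QM.HB, Finset.mem_filter] at hv
    exact (hF.dom v (H167.Q.bq_mono hdR hv.1)).2 hv.2
  have hV2 : QM.HB x d ⊆ QM.HB x R := by
    intro v hv
    rw [QM.HB, Finset.mem_filter] at hv ⊢
    exact ⟨H167.Q.bq_mono hdR hv.1, hv.2⟩
  have hV3 : QM.HB x d ⊆ Bq x d := Finset.filter_subset _ _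
  have f1 : H192.Q.Fr x R D η := fun v hv hvD => hF.out v hv hvD
  have f2 : H192.Q.Fr x R (QM.HB x R) eta0 := H192.Q.fr_eta0
  exact ⟨H192.Q.rat_bdy_dom hQ hL hd (by rw [hR]) hDD hV1 hV3 (fun _ => ind_nonneg _ _)
      (loc_Am x d).loc hη f_good.2.1 f1 f2,
    H192.Q.rat_bdy_dom hQ hL hd (by rw [hR]) hDD.symm hV2 hV3 (fun _ => ind_nonneg _ _)
      (loc_Am x d).loc f_good.2.1 hη f2 f1⟩

theorem ah_nonneg (hQ : 1 ≤ Q) (L d : ℤ) : 0 ≤ ah Q L d := Pr_nonneg (by linarith) _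

theorem flt_self (x : Pt) {R R' : ℤ} (h : R' ≤ R) : Flt (QM.HB x R) eta0 x R' where
  dom v hv := by
    rw [QM.HB, Finset.mem_filter]
    exact ⟨fun h => h.2, fun h' => ⟨H167.Q.bq_mono h hv, h'⟩⟩
  out _ _ _ := rfl

/-- Quasi monotonicity. -/
theorem mono_ah (hQ : 1 ≤ Q) {L : ℤ} (hL : Rat Q L) {d d' : ℤ} (hd : 1 ≤ d) (hdd : d ≤ d') :
    ah Q L d' ≤ 8 * ah Q L d := by
  have hQ0 : 0 < Q := by linarith
  have hL2 := hL.1
  have h1 : ah Q L d' ≤ Pr Q (QM.HB (0, 0) (L * (L * d'))) eta0 (Am (0, 0) d) :=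
    Pr_mono hQ0 (am_anti (by omega) hdd)
  refine h1.trans (cmp_ah hQ hL hd (by rfl) f_good.2.1 (flt_self _ ?_)).1
  have : L * d ≤ L * d' := mul_le_mul_of_nonneg_left hdd (by omega)
  exact mul_le_mul_of_nonneg_left this (by omega)

/-- **Doubling** from the regularity. -/
theorem dbl_ah (hQ : 1 ≤ Q) {L : ℤ} (hL : Rat Q L) (hreg : RegS Q L) : ∃ (C2 : ℝ) (n0 : ℤ),
    1 ≤ C2 ∧ 1 ≤ n0 ∧ ∀ ρ : ℤ, n0 ≤ ρ → ah Q L ρ ≤ C2 * ah Q L (2 * ρ) := by
  obtain ⟨c, n0, hc, hn0, h⟩ := hreg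
  refine ⟨max 1 (16 / c), n0, le_max_left _ _, hn0, fun ρ hρ => ?_⟩
  have h1 := h (2 * ρ) (by omega)
  have hρ1 : 1 ≤ ρ := hn0.trans hρ
  have hρr : (1 : ℝ) ≤ ρ := by exact_mod_cast hρ1
  have h2 : (ρ : ℝ) * (ah Q L ρ / 8) ≤ ∑ d ∈ Finset.Icc 1 (2 * ρ), ah Q L d := by
    calc (ρ : ℝ) * (ah Q L ρ / 8) = ∑ _d ∈ Finset.Icc 1 ρ, ah Q L ρ / 8 := by
          rw [Finset.sum_const, Int.card_Icc, nsmul_eq_mul]
          congr 1
          have : ((ρ + 1 - 1).toNat : ℤ) = ρ := by rw [Int.toNat_of_nonneg (by omega)]; ring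
          exact_mod_cast this.symm
      _ ≤ ∑ d ∈ Finset.Icc 1 ρ, ah Q L d := by
          refine Finset.sum_le_sum fun d hd => ?_
          rw [Finset.mem_Icc] at hd
          have := mono_ah hQ hL hd.1 hd.2
          linarith
      _ ≤ ∑ d ∈ Finset.Icc 1 (2 * ρ), ah Q L d := by
          refine Finset.sum_le_sum_of_subset_of_nonneg ?_ fun _ _ _ => ah_nonneg hQ _ _
          intro d hd
          rw [Finset.mem_Icc] at hd ⊢
          omega
  have h3 : c * ((ρ : ℝ) * (ah Q L ρ / 8)) ≤ ((2 * ρ : ℤ) : ℝ) * ah Q L (2 * ρ) := by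
    refine le_trans (mul_le_mul_of_nonneg_left ?_ hc.le) h1
    linarith
  push_cast at h3
  have h4 : c * ah Q L ρ ≤ 16 * ah Q L (2 * ρ) := by
    have : (ρ : ℝ) * (c * ah Q L ρ) ≤ ρ * (16 * ah Q L (2 * ρ)) := by nlinarith
    exact le_of_mul_le_mul_left this (by linarith)
  have h5 : ah Q L ρ ≤ 16 / c * ah Q L (2 * ρ) := by
    rw [div_mul_eq_mul_div, le_div_iff₀ hc]
    linarith
  exact h5.trans (mul_le_mul_of_nonneg_right (le_max_right _ _) (ah_nonneg hQ _ _))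

theorem dbl_iter {L : ℤ} {C2 : ℝ} {n0 : ℤ} (hC : 1 ≤ C2) (hn0 : 1 ≤ n0)
    (h : ∀ ρ : ℤ, n0 ≤ ρ → ah Q L ρ ≤ C2 * ah Q L (2 * ρ)) (k : ℕ) {ρ : ℤ} (hρ : n0 ≤ ρ) :
    ah Q L ρ ≤ C2 ^ k * ah Q L (2 ^ k * ρ) := by
  induction k with
  | zero => simp
  | succ k ih =>
    refine ih.trans ?_
    have h1 : (1 : ℤ) ≤ 2 ^ k := one_le_pow₀ (by norm_num)
    have h2 := h (2 ^ k * ρ) (by nlinarith)
    have e : (2 : ℤ) ^ (k + 1) * ρ = 2 * (2 ^ k * ρ) := by rw [pow_succ]; ring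
    rw [e, pow_succ, mul_assoc]
    exact mul_le_mul_of_nonneg_left h2 (by positivity)

/-- Comparison at comparable scales. -/
theorem ah_comp (hQ : 1 ≤ Q) {L : ℤ} (hL : Rat Q L) {C2 : ℝ} {n0 : ℤ} (hC : 1 ≤ C2) (hn0 : 1 ≤ n0)
    (h : ∀ ρ : ℤ, n0 ≤ ρ → ah Q L ρ ≤ C2 * ah Q L (2 * ρ)) {k : ℕ} {s l : ℤ} (hs : n0 ≤ s)
    (hl : 1 ≤ l) (hsl : l ≤ 2 ^ k * s) : ah Q L s ≤ 8 * C2 ^ k * ah Q L l := by
  have h1 := dbl_iter hC hn0 h k hs
  have h2 := mono_ah hQ hL hl hsl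
  calc ah Q L s ≤ C2 ^ k * ah Q L (2 ^ k * s) := h1
    _ ≤ C2 ^ k * (8 * ah Q L l) := mul_le_mul_of_nonneg_left h2 (by positivity)
    _ = _ := by ring

end Vale.Agent.P167.H208
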