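import Vale.Agent.P167.H208.SmDefs
import Vale.Agent.P167.H704.Rs

/-!
# P167, general `q`, block Q-SRSW: chains of links in the bulk
-/

namespace Vale.Agent.P167.H208

open Finset Vale.Agent.P145.FB Vale.Agent.P153 Vale.Agent.P153.Topo Vale.Agent.P167
  Vale.Agent.P167.H632 Vale.Agent.P167.H871 Vale.Agent.P167.H704 Vale.Agent.P167.FK
  Vale.Agent.P167.FKA
open Vale.Agent.P167.H259 (f_markov f_fkg f_comp f_comp2 Ex_out)

variable {Q : ℝ} {D : Finset Pt} {η : Cfg}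

/-- A link: a radial crossing and no dual crossing of the annulus. -/
def Lnk (z : Pt) (r R : ℤ) : Set Cfg :=
  Hc true z.1 (z.1 + (R + r)) (z.2 - r) (z.2 + r) ∩ NX true z (2 * r + 1) R

theorem inc_Lnk (z : Pt) (r R : ℤ) : IncC true (Lnk z r R) := (inc_Hc _ _ _ _ _).inter (inc_NX _ _ _ _)

/-- the radial path of a link -/
theorem lnk_rad {z : Pt} {r R : ℤ} (hr : 0 ≤ r) (hR : 0 ≤ R) {ω : Cfg} (h : ω ∈ Lnk z r R) :
    ∃ y y1 : Pt, (y.1 + y.2) % 2 = 0 ∧ nm (y - z) ≤ r ∧ nm (y1 - z) = R + r ∧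
      PConn (op ω) (bl z (R + r)) y y1 := by
  obtain ⟨⟨s, t, h1, h2, h3, h4⟩, -⟩ := h
  have hs := h4.left_mem
  have ht := h4.right_mem
  rw [mem_rect] at hs ht
  refine ⟨s, t, by simpa [pr] using h3, ?_, le_antisymm ?_ ?_, h4.mono subset_rfl ?_⟩
  · rw [nm_le]; simp only [Prod.fst_sub, Prod.snd_sub]; omega
  · rw [nm_le]; simp only [Prod.fst_sub, Prod.snd_sub]; omega
  · rw [le_nm]; simp only [Prod.fst_sub, Prod.snd_sub]; omega
  · intro w hw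
    rw [mem_rect] at hw
    rw [mem_bl]
    omega

/-- **Links in the bulk have probability at least `c`.** -/
theorem lnk_ge (hQ : 1 ≤ Q) (h : RSW Q) : ∃ (K0 : ℤ) (c : ℝ) (s0 : ℤ), 1 ≤ K0 ∧ 0 < c ∧ c ≤ 1 ∧
    1 ≤ s0 ∧ ∀ (z : Pt) (r : ℤ) (D : Finset Pt) (η : Cfg), s0 ≤ r → Good η →
    Bq z (K0 * (2 * r + 1) + 2 * r) ⊆ D → c ≤ Pr Q D η (Lnk z r (K0 * (2 * r + 1))) := by
  have hQ0 : 0 < Q := by linarith
  obtain ⟨K0, hK0, hac⟩ := H704.Q.ac_half hQ h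
  obtain ⟨c, s0, hc, hc1, hs0, hrs⟩ := H704.Q.rs_fk hQ h (3 * K0.toNat + 1)
  refine ⟨K0, c * (1 / 2), s0, hK0, by positivity, by linarith, hs0, fun z r D η hr hη hD => ?_⟩
  have hr1 : 1 ≤ r := hs0.trans hr
  obtain ⟨R, hR⟩ : ∃ R, R = K0 * (2 * r + 1) := ⟨_, rfl⟩
  rw [← hR] at hD ⊢
  have hRr : 2 * r + 1 ≤ R := by rw [hR]; nlinarith
  have hin : ∀ v : Pt, v ∉ D → v ∉ Bq z (R + 2 * r) := fun v h1 h2 => h1 (hD h2)
  refine le_trans ?_ (H704.Q.prC_inter hQ hη (inc_Hc _ _ _ _ _) (inc_NX _ _ _ _))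
  refine mul_le_mul ?_ ?_ (by norm_num) (Pr_nonneg hQ0 _)
  · refine (hrs true z.1 (z.1 + (R + r)) (z.2 - r) (z.2 + r) D η hη (by omega) (by omega)).1
      (by omega) ?_ ?_
    · push_cast
      rw [Int.toNat_of_nonneg (by omega)]
      have : R ≤ 3 * K0 * r := by rw [hR]; nlinarith
      nlinarith
    · intro v h1 h2 h3 h4 h5
      exact absurd (by rw [H167.Q.mem_Bq]; omega) (hin v h5)
  · have h1 := hac false z (2 * r + 1) R D η (by omega) (by rw [hR]) hη (fun v h1 _ h2 => by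
      rw [H167.Q.mem_Bq] at h1
      exact absurd (by rw [H167.Q.mem_Bq]; omega) (hin v h2))
    have h2 : Pr Q D η (NX true z (2 * r + 1) R)ᶜ ≤ Pr Q D η (H704.Q.AC false z (2 * r + 1) R) := by
      refine Pr_mono hQ0 fun ω hω => ?_
      simp only [NX, NoX, Set.mem_compl_iff, Set.mem_ofPred_eq] at hω
      push Not at hω
      obtain ⟨y, y', k1, k2, k3, k4⟩ := hω
      rw [cs_compl] at k4
      refine ⟨y, y', by rw [k1]; simp [pr], k2.le, k3.ge, k4.mono subset_rfl ?_⟩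
      exact fun w hw => hw.2.2
    rw [Pr_compl hQ0] at h2
    linarith

/-- **Gluing along a chain of links.** -/
theorem chain_glue {ω : Cfg} {z : ℕ → Pt} {r R : ℤ} (hr : 1 ≤ r) (hR : 2 * r + 1 ≤ R)
    (hz : ∀ i, nm (z (i + 1) - z i) ≤ r) (n : ℕ) (h : ∀ i ≤ n, ω ∈ Lnk (z i) r R) {Rg : Set Pt}
    (hA : ∀ i ≤ n, bl (z i) (R + r) ⊆ Rg) {x u : Pt} (hx : (x.1 + x.2) % 2 = 0)
    (hxu : PConn (op ω) Rg x u) (hu : nm (u - z 0) ≤ r) (hx' : R + r ≤ nm (x - z 0)) :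
    ∀ m ≤ n, ∃ y y1 : Pt, (y.1 + y.2) % 2 = 0 ∧ nm (y - z m) ≤ r ∧ nm (y1 - z m) = R + r ∧
      PConn (op ω) (bl (z m) (R + r)) y y1 ∧ PConn (op ω) Rg x y := by
  intro m
  induction m with
  | zero =>
    intro hm
    obtain ⟨y, y1, k1, k2, k3, k4⟩ := lnk_rad (by omega) (by omega) (h 0 hm)
    refine ⟨y, y1, k1, k2, k3, k4, ?_⟩
    obtain ⟨x1, m1, m2, m3⟩ := first_exit (b := z 0) (R := R + r) hxu.symm (by omega) hx'
    have hupar : (u.1 + u.2) % 2 = pr true := by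
      rw [← hxu.parity, hx]; simp [pr]
    have hypar : (y.1 + y.2) % 2 = pr true := by rw [k1]; simp [pr]
    have g := glue2 (e := true) (ω := ω) (z := z 0) (z' := z 0) hr hR (by
        rw [sub_self, nm_le]; simp only [Prod.fst_zero, Prod.snd_zero]; omega)
      (h 0 hm).2 hupar hypar (by omega) m1 k2 k3
      (m2.mono subset_rfl (Set.subset_univ _)) (k4.mono subset_rfl (Set.subset_univ _))
    refine hxu.trans (g.mono subset_rfl ?_)
    refine subset_trans ?_ (hA 0 hm)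
    intro w hw
    rw [mem_bl] at hw ⊢
    omega
  | succ m ih =>
    intro hm
    obtain ⟨y, y1, k1, k2, k3, k4, k5⟩ := ih (by omega)
    obtain ⟨y', y1', m1, m2, m3, m4⟩ := lnk_rad (by omega) (by omega) (h (m + 1) hm)
    refine ⟨y', y1', m1, m2, m3, m4, ?_⟩
    have g := glue2 (e := true) (ω := ω) (z := z m) (z' := z (m + 1)) hr hR (hz m)
      (h m (by omega)).2 (by rw [k1]; simp [pr]) (by rw [m1]; simp [pr]) k2 k3 m2 m3
      (k4.mono subset_rfl (Set.subset_univ _)) (m4.mono subset_rfl (Set.subset_univ _))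
    refine k5.trans (g.mono subset_rfl ?_)
    refine subset_trans ?_ (hA m (by omega))
    intro w hw
    rw [mem_bl] at hw ⊢
    omega

/-- Gluing with a last path. -/
theorem chain_glue2 {ω : Cfg} {z : ℕ → Pt} {r R : ℤ} (hr : 1 ≤ r) (hR : 2 * r + 1 ≤ R)
    (hz : ∀ i, nm (z (i + 1) - z i) ≤ r) (n : ℕ) (h : ∀ i ≤ n, ω ∈ Lnk (z i) r R) {Rg : Set Pt}
    (hA : ∀ i ≤ n, bl (z i) (R + r) ⊆ Rg) {x u u' v : Pt} (hx : (x.1 + x.2) % 2 = 0)
    (hxu : PConn (op ω) Rg x u) (hu : nm (u - z 0) ≤ r) (hx' : R + r ≤ nm (x - z 0))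
    (hu'p : (u'.1 + u'.2) % 2 = 0) (huv : PConn (op ω) Rg u' v) (hu' : nm (u' - z n) ≤ r)
    (hv : R + r ≤ nm (v - z n)) : PConn (op ω) Rg x v := by
  obtain ⟨y, y1, k1, k2, k3, k4, k5⟩ := chain_glue hr hR hz n h hA hx hxu hu hx' n le_rfl
  obtain ⟨v1, m1, m2, m3⟩ := first_exit (b := z n) (R := R + r) huv (by omega) hv
  have g := glue2 (e := true) (ω := ω) (z := z n) (z' := z n) hr hR (by
      rw [sub_self, nm_le]; simp only [Prod.fst_zero, Prod.snd_zero]; omega)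
    (h n le_rfl).2 (by rw [k1]; simp [pr]) (by rw [hu'p]; simp [pr]) k2 k3 hu' m1
    (k4.mono subset_rfl (Set.subset_univ _)) (m2.mono subset_rfl (Set.subset_univ _))
  refine k5.trans ((g.mono subset_rfl ?_).trans huv)
  refine subset_trans ?_ (hA n le_rfl)
  intro w hw
  rw [mem_bl] at hw ⊢
  omega

/-! ### Grid chains -/

/-- Clamp of `J` to `[-i, i]`. -/
def mv (J : ℤ) (i : ℕ) : ℤ := max (-(i : ℤ)) (min (i : ℤ) J)

theorem mv_zero (J : ℤ) : mv J 0 = 0 := by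
  simp only [mv, Nat.cast_zero, neg_zero]
  omega

theorem mv_eq {J : ℤ} {i : ℕ} (h : |J| ≤ i) : mv J i = J := by
  rw [abs_le] at h
  simp only [mv]
  omega

theorem mv_step (J : ℤ) (i : ℕ) : |mv J (i + 1) - mv J i| ≤ 1 := by
  simp only [mv]
  push_cast
  rw [abs_le]
  omega

theorem mv_mem (J : ℤ) (i : ℕ) : min 0 J ≤ mv J i ∧ mv J i ≤ max 0 J := by
  simp only [mv]
  omega

/-- The chain from `z` to `z + (J r, J' r)`. -/
def chn (z : Pt) (J J' r : ℤ) (i : ℕ) : Pt := (z.1 + mv J i * r, z.2 + mv J' i * r)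

theorem chn_zero (z : Pt) (J J' r : ℤ) : chn z J J' r 0 = z := by
  simp [chn, mv_zero]

theorem chn_last {z : Pt} {J J' r : ℤ} {n : ℕ} (h : |J| ≤ n) (h' : |J'| ≤ n) :
    chn z J J' r n = (z.1 + J * r, z.2 + J' * r) := by
  rw [chn, mv_eq h, mv_eq h']

theorem chn_step {z : Pt} {J J' r : ℤ} (hr : 0 ≤ r) (i : ℕ) :
    nm (chn z J J' r (i + 1) - chn z J J' r i) ≤ r := by
  have h1 := abs_le.1 (mv_step J i)
  have h2 := abs_le.1 (mv_step J' i)
  rw [nm_le]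
  simp only [chn, Prod.fst_sub, Prod.snd_sub]
  refine ⟨by nlinarith, by nlinarith, by nlinarith, by nlinarith⟩

/-- The sites of the chain are between the ends. -/
theorem chn_mem {z : Pt} {J J' r : ℤ} (hr : 0 ≤ r) (i : ℕ) :
    min z.1 (z.1 + J * r) ≤ (chn z J J' r i).1 ∧ (chn z J J' r i).1 ≤ max z.1 (z.1 + J * r) ∧
    min z.2 (z.2 + J' * r) ≤ (chn z J J' r i).2 ∧ (chn z J J' r i).2 ≤ max z.2 (z.2 + J' * r) := by
  have h1 := mv_mem J i
  have h2 := mv_mem J' i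
  have key : ∀ (a J m : ℤ), min 0 J ≤ m → m ≤ max 0 J →
      min a (a + J * r) ≤ a + m * r ∧ a + m * r ≤ max a (a + J * r) := by
    intro a J m k1 k2
    rcases le_total 0 J with hJ | hJ
    · rw [min_eq_left hJ] at k1
      rw [max_eq_right hJ] at k2
      exact ⟨(min_le_left _ _).trans (by nlinarith), le_max_of_le_right (by nlinarith)⟩
    · rw [min_eq_right hJ] at k1
      rw [max_eq_left hJ] at k2
      exact ⟨(min_le_right _ _).trans (by nlinarith), le_max_of_le_left (by nlinarith)⟩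
  exact ⟨(key z.1 J _ h1.1 h1.2).1, (key z.1 J _ h1.1 h1.2).2, (key z.2 J' _ h2.1 h2.2).1,
    (key z.2 J' _ h2.1 h2.2).2⟩

/-- The probability of a chain. -/
theorem chain_ge (hQ : 1 ≤ Q) (hη : Good η) {z : ℕ → Pt} {r R : ℤ} {c : ℝ} (hc : 0 ≤ c) (n : ℕ)
    (h : ∀ i ≤ n, c ≤ Pr Q D η (Lnk (z i) r R)) :
    IncC true {ω | ∀ i ≤ n, ω ∈ Lnk (z i) r R} ∧
      c ^ (n + 1) ≤ Pr Q D η {ω | ∀ i ≤ n, ω ∈ Lnk (z i) r R} := by
  have key := H704.Q.prC_all (e := true) (Q := Q) (D := D) hQ hη (A := fun i => Lnk (z i) r R)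
    (fun i => inc_Lnk _ _ _) hc (n + 1) (fun i hi => h i (by omega))
  have e1 : {ω : Cfg | ∀ i < n + 1, ω ∈ Lnk (z i) r R} = {ω | ∀ i ≤ n, ω ∈ Lnk (z i) r R} := by
    ext ω
    simp only [Set.mem_ofPred_eq]
    exact ⟨fun h i hi => h i (by omega), fun h i hi => h i (by omega)⟩
  rw [e1] at key
  exact key

end Vale.Agent.P167.H208
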