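import Vale.Agent.P167.H208.SmDefs

/-!
# P167, general `q`, block Q-SRSW: low crossings along a free side are unlikely
-/

namespace Vale.Agent.P167.H208

open Finset Vale.Agent.P145.FB Vale.Agent.P153 Vale.Agent.P153.Topo Vale.Agent.P167
  Vale.Agent.P167.H632 Vale.Agent.P167.H871 Vale.Agent.P167.H704 Vale.Agent.P167.FK
  Vale.Agent.P167.FKA
open Vale.Agent.P167.H259 (f_markov f_fkg f_comp f_comp2 Ex_out)

variable {Q : ℝ} {D : Finset Pt} {η : Cfg}

/-- A primal horizontal crossing excludes a dual vertical crossing. -/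
theorem hc_vc {a b p q : ℤ} {ω : Cfg} (h : ω ∈ Hc true a b p q) (h' : ω ∈ Vc false a b p q) :
    False := by
  obtain ⟨s, t, h1, h2, h3, h4⟩ := h
  obtain ⟨s', t', k1, k2, k3, k4⟩ := h'
  rw [cs_false] at k4
  exact easy (F := op ω) (by rwa [cs_true] at h4) h1 h2 (by simpa [pr] using h3) k4
    (by simpa [pr] using k3) (Or.inl k1) (Or.inl k2)

/-- A crossing of a long rectangle crosses the parts. -/
theorem hc_split {c : Bool} {a m b p q : ℤ} (ham : a ≤ m) (hmb : m ≤ b) {ω : Cfg}
    (h : ω ∈ Hc c a b p q) : ω ∈ Hc c a m p q ∧ ω ∈ Hc c m b p q := by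
  obtain ⟨s, t, h1, h2, h3, h4⟩ := h
  constructor
  · obtain ⟨z, k1, k2, k3⟩ := pconn_cut_first (fun w => w.1) col_inc h4 (R := m) (by omega) (by omega)
    refine ⟨s, z, h1, k1, h3, k2.mono subset_rfl ?_⟩
    rintro w ⟨w1, w2⟩
    simp only [Set.mem_ofPred_eq] at w2
    rw [mem_rect] at w1 ⊢
    omega
  · obtain ⟨z, k1, k2, k3⟩ := pconn_cut_first (fun w => -w.1) (fun u v h => by
      have := col_inc v u h.symm
      omega) h4.symm (R := -m) (by omega) (by omega)
    refine ⟨z, t, by omega, h2, ?_, k2.symm.mono subset_rfl ?_⟩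
    · rw [← h3]; exact k3.parity
    · rintro w ⟨w1, w2⟩
      simp only [Set.mem_ofPred_eq] at w2
      rw [mem_rect] at w1 ⊢
      omega

/-- The squares of the block `[a, b) × [f, g)`. -/
noncomputable def blk (a b f g : ℤ) : Finset Pt := Finset.Ico a b ×ˢ Finset.Ico f g

theorem mem_blk {a b f g : ℤ} {v : Pt} : v ∈ blk a b f g ↔ a ≤ v.1 ∧ v.1 < b ∧ f ≤ v.2 ∧ v.2 < g := by
  rw [blk, Finset.mem_product, Finset.mem_Ico, Finset.mem_Ico]
  tauto

theorem loc_Hc (c : Bool) (a b p q : ℤ) : LocE (blk a b p q) (Hc c a b p q) := by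
  rintro o o' ho ⟨s, t, h1, h2, h3, h4⟩
  refine ⟨s, t, h1, h2, h3, congr_rect (fun v hv m1 m2 m3 m4 => ?_) h4⟩
  show o' v = c
  rw [← ho v (mem_blk.2 ⟨m1, m2, m3, m4⟩)]
  exact hv

/-- **Low crossings along a free side.** The squares `[a, a + K h) × [f, f + 2 h)` are in the domain,
those below the level `f` are closed. -/
theorem low_le (hQ : 1 ≤ Q) (h : RSW Q) : ∃ (c : ℝ) (s0 : ℤ), 0 < c ∧ c ≤ 1 ∧ 1 ≤ s0 ∧
    ∀ (K : ℕ) (a f s : ℤ) (D : Finset Pt) (η : Cfg) (G : Cfg → ℝ), s0 ≤ s → Good η →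
    blk a (a + K * s) f (f + 2 * s) ⊆ D →
    (∀ v : Pt, a ≤ v.1 → v.1 < a + K * s → f - s ≤ v.2 → v.2 < f → v ∉ D ∧ η v = false) →
    (∀ ω, 0 ≤ G ω) → Ind (blk a (a + K * s) f (f + 2 * s)) G →
    Ex Q D η (fun ω => G ω * (Hc true a (a + K * s) f (f + s)).indicator 1 ω) ≤
      (1 - c) ^ K * Ex Q D η G := by
  have hQ0 : 0 < Q := by linarith
  obtain ⟨c, s0, hc, hc1, hs0, hrs⟩ := H704.Q.rs_fk hQ h 1
  refine ⟨c, s0, hc, hc1, hs0, fun K => ?_⟩
  induction K with
  | zero =>
    intro a f s D η G hs hη hD hout hG0 hG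
    rw [pow_zero, one_mul]
    refine Ex_mono hQ0 fun S _ => ?_
    exact mul_le_of_le_one_right (hG0 _) (ind_le_one _ _)
  | succ K ih =>
    intro a f s D η G hs hη hD hout hG0 hG
    have hs1 : 1 ≤ s := hs0.trans hs
    have hK : (0 : ℤ) ≤ K * s := by positivity
    have e1 : a + ((K + 1 : ℕ) : ℤ) * s = a + K * s + s := by push_cast; ring
    rw [e1] at hD hout hG ⊢
    obtain ⟨b, hb⟩ : ∃ b, b = a + K * s := ⟨_, rfl⟩
    rw [← hb] at hD hout hG ⊢
    have hab : a ≤ b := by omega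
    have sub1 : blk a b f (f + 2 * s) ⊆ blk a (b + s) f (f + 2 * s) := by
      intro v hv; rw [mem_blk] at hv ⊢; omega
    have sub2 : blk b (b + s) f (f + 2 * s) ⊆ blk a (b + s) f (f + 2 * s) := by
      intro v hv; rw [mem_blk] at hv ⊢; omega
    -- the first blocks
    have i1 := ih a f s D η G hs hη (by rw [← hb]; exact sub1.trans hD)
      (fun v h1 h2 h3 h4 => hout v h1 (by rw [← hb] at h2; omega) h3 h4) hG0
      (by rw [← hb]; exact hG.mono sub1)
    rw [← hb] at i1
    -- the last block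
    have hG1 : Ind (blk b (b + s) f (f + 2 * s))
        (fun ω => G ω * (Hc true a b f (f + s)).indicator 1 ω) := by
      refine (hG.mono sub2).mul ?_
      refine ((loc_Hc true a b f (f + s)).indE ?_).ind
      rw [Finset.disjoint_left]
      intro v hv hv'
      rw [mem_blk] at hv hv'
      omega
    have key : Ex Q D η (fun ω => G ω * (Hc true a b f (f + s)).indicator 1 ω *
        (Hc true b (b + s) f (f + s)).indicator 1 ω) ≤
        (1 - c) * Ex Q D η (fun ω => G ω * (Hc true a b f (f + s)).indicator 1 ω) := by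
      rw [markov f_markov hQ0 (sub2.trans hD) hη hG1, ← Ex_mul_left]
      refine Ex_mono hQ0 fun S _ => ?_
      rw [mul_comm (1 - c)]
      refine mul_le_mul_of_nonneg_left ?_ (mul_nonneg (hG0 _) (ind_nonneg _ _))
      have g1 : Good (cf D η S) := f_good.1 D η S hη
      have k1 := (hrs false b (b + s) f (f + s) (blk b (b + s) f (f + 2 * s)) (cf D η S) g1
        (by omega) (by omega)).2 (by omega) (by push_cast; omega) (fun v h1 h2 h3 h4 h5 => by
          by_cases h6 : f ≤ v.2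
          · exact absurd (mem_blk.2 ⟨h3, h4, h6, by omega⟩) h5
          · obtain ⟨m1, m2⟩ := hout v (by omega) (by omega) (by omega) (by omega)
            rw [cf_out m1, m2])
      have k2 : Ex Q (blk b (b + s) f (f + 2 * s)) (cf D η S)
          ((Hc true b (b + s) f (f + s)).indicator 1) ≤
          Pr Q (blk b (b + s) f (f + 2 * s)) (cf D η S) (Vc false b (b + s) f (f + s))ᶜ :=
        Pr_mono hQ0 fun ω h1 h2 => hc_vc h1 h2
      rw [Pr_compl hQ0] at k2
      linarith
    have k3 : Ex Q D η (fun ω => G ω * (Hc true a (b + s) f (f + s)).indicator 1 ω) ≤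
        Ex Q D η (fun ω => G ω * (Hc true a b f (f + s)).indicator 1 ω *
        (Hc true b (b + s) f (f + s)).indicator 1 ω) := by
      refine Ex_mono hQ0 fun S _ => ?_
      rw [mul_assoc, ← ind_inter]
      refine mul_le_mul_of_nonneg_left ?_ (hG0 _)
      refine Set.indicator_le_indicator_of_subset ?_ (fun _ => zero_le_one) _
      exact fun ω hω => hc_split (by omega) (by omega) hω
    refine k3.trans (key.trans ?_)
    rw [pow_succ, mul_comm ((1 - c) ^ K), mul_assoc]
    exact mul_le_mul_of_nonneg_left i1 (by linarith)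

end Vale.Agent.P167.H208
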