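import Vale.Agent.P167.H208.SmIter

/-!
# P167, general `q`, block Q-SRSW: bound of the crossing probability of a half annulus and lower bound
of the probability to reach a macroscopic height
-/

namespace Vale.Agent.P167.H208

open Finset Vale.Agent.P145.FB Vale.Agent.P153 Vale.Agent.P153.Topo Vale.Agent.P167
  Vale.Agent.P167.H632 Vale.Agent.P167.H871 Vale.Agent.P167.H704 Vale.Agent.P167.FK
  Vale.Agent.P167.FKA
open Vale.Agent.P167.H259 (f_markov f_fkg f_comp f_comp2 Ex_out)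
open Vale.Agent.P167.H519 (Rat)

variable {Q : ℝ}

/-- The choice of the number of blocks. -/
theorem exists_K (C : Cs Q) {C2 : ℝ} (hC2 : 1 ≤ C2) : ∃ K : ℕ, 1 ≤ K ∧
    2 * (1 - C.c) ^ K * (8 * (8 * C2)) ≤ 1 / 2 := by
  have h1 : 0 ≤ 1 - C.c := by have := C.hc1; linarith
  have h2 : 1 - C.c < 1 := by have := C.hc; linarith
  have h3 := tendsto_pow_atTop_nhds_zero_of_lt_one h1 h2
  have h4 : Filter.Tendsto (fun K : ℕ => 2 * (1 - C.c) ^ K * (8 * (8 * C2))) Filter.atTop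
      (nhds (2 * 0 * (8 * (8 * C2)))) := (h3.const_mul 2).mul_const _
  rw [mul_zero, zero_mul] at h4
  obtain ⟨K, k1, k2⟩ := ((h4.eventually (ge_mem_nhds (show (0 : ℝ) < 1 / 2 by norm_num))).and
    (Filter.eventually_ge_atTop 1)).exists
  exact ⟨K, k2, k1⟩

/-- The arms reach the bulk boxes. -/
theorem hit_sum (C : Cs Q) {L : ℤ} (hL : Rat Q L) {C2 : ℝ} (hC2 : 1 ≤ C2)
    {K : ℕ} (hK1 : 1 ≤ K) (hK : 2 * (1 - C.c) ^ K * (8 * (8 * C2)) ≤ 1 / 2) {ρ : ℤ}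
    (N : C.Num K ρ) (hd : ah Q L ρ ≤ C2 * ah Q L (2 * ρ)) {D : Finset Pt} {η : Cfg} {x : Pt}
    (hx : (x.1 + x.2) % 2 = 0) (hη : Good η) (hF : Flt D η x (L * (L * (2 * ρ)))) :
    ah Q L (2 * ρ) ≤ 16 * ∑ j ∈ gI (C.JJ K),
      Pr Q D η (Hit x (gr x (C.ht K ρ) (C.rr K ρ) j) (C.rr K ρ) (2 * ρ)) := by
  have hQ := C.hQ
  have hρ := N.hρ
  have hL2 := hL.1
  have h2ρ := (H192.Q.scale_le hL (r := 2 * ρ) (by omega) le_rfl)
  have h1 := Cs.step1 N hK1 hη (hF.mono (h2ρ.1.trans h2ρ.2)) hx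
  have h2 := (cmp_ah hQ hL (d := 2 * ρ) (by omega) hx hη hF).2
  have h3 := (cmp_ah hQ hL (d := ρ) (by omega) hx hη (hF.mono (by
    have : L * ρ ≤ L * (2 * ρ) := mul_le_mul_of_nonneg_left (by omega) (by omega)
    exact mul_le_mul_of_nonneg_left this (by omega)))).1
  have h4 : 0 ≤ 2 * (1 - C.c) ^ K := by
    have : 0 ≤ 1 - C.c := by have := C.hc1; linarith
    positivity
  have h5 : 2 * (1 - C.c) ^ K * Pr Q D η (Am x ρ) ≤ 2 * (1 - C.c) ^ K * (8 * (C2 * ah Q L (2 * ρ))) :=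
    mul_le_mul_of_nonneg_left (h3.trans (by linarith)) h4
  have h6 : 2 * (1 - C.c) ^ K * (8 * (C2 * ah Q L (2 * ρ))) * 8 ≤ 1 / 2 * ah Q L (2 * ρ) := by
    have e : 2 * (1 - C.c) ^ K * (8 * (C2 * ah Q L (2 * ρ))) * 8 =
      2 * (1 - C.c) ^ K * (8 * (8 * C2)) * ah Q L (2 * ρ) := by ring
    rw [e]
    exact mul_le_mul_of_nonneg_right hK (ah_nonneg hQ _ _)
  linarith

/-- **The iteration**: `g(ρ) ah(ρ) ≤ A ah(m)`. -/
theorem iter (C : Cs Q) {L : ℤ} (hL : Rat Q L) {C2 : ℝ} {n0 : ℤ} (hC2 : 1 ≤ C2) (hn0 : 1 ≤ n0)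
    (hd : ∀ ρ : ℤ, n0 ≤ ρ → ah Q L ρ ≤ C2 * ah Q L (2 * ρ)) :
    ∃ (ρ0 : ℤ) (A : ℝ), n0 ≤ ρ0 ∧ 0 < A ∧ ∀ (x : Pt) (m : ℤ) (D : Finset Pt) (η : Cfg),
      (x.1 + x.2) % 2 = 0 → Good η → Flt D η x (L * (L * m)) → ∀ ρ : ℤ, ρ0 ≤ ρ → ρ ≤ m →
      Pr Q D η (Cr x ρ m) * ah Q L ρ ≤ A * ah Q L m := by
  have hQ := C.hQ
  have hQ0 := C.hQ0
  have hL2 := hL.1
  obtain ⟨K, hK1, hK⟩ := exists_K C hC2
  have hcL := C.hcL
  have hc1 : 0 ≤ 1 - C.c := by have := C.hc1; linarith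
  obtain ⟨n, hn⟩ : ∃ n : ℕ, n = 2 * (C.JJ K).toNat + 1 := ⟨_, rfl⟩
  obtain ⟨Nr, hNr⟩ : ∃ Nr : ℝ, Nr = ((gI (C.JJ K)).card : ℝ) := ⟨_, rfl⟩
  obtain ⟨cc, hcc⟩ : ∃ cc : ℝ, cc = C.cL ^ n := ⟨_, rfl⟩
  have hcc0 : 0 < cc := by rw [hcc]; positivity
  have hNr0 : 0 ≤ Nr := by rw [hNr]; positivity
  obtain ⟨A1, hA1⟩ : ∃ A1 : ℝ, A1 = C2 * (16 * (8 * (Nr * Nr))) / cc := ⟨_, rfl⟩
  have hA10 : 0 ≤ A1 := by rw [hA1]; positivity
  refine ⟨max n0 (C.s0 * (5 * C.K0 * K) + 1), 2 * A1 + 8 * C2 ^ 3, le_max_left _ _, by positivity,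
    fun x m D η hx hη hF => ?_⟩
  -- induction on `m - ρ`
  have main : ∀ (k : ℕ) (ρ : ℤ), (m - ρ).toNat ≤ k → max n0 (C.s0 * (5 * C.K0 * K) + 1) ≤ ρ →
      ρ ≤ m → Pr Q D η (Cr x ρ m) * ah Q L ρ ≤ (2 * A1 + 8 * C2 ^ 3) * ah Q L m := by
    intro k
    induction k with
    | zero =>
      intro ρ h1 h2 h3
      have e : ρ = m := by omega
      rw [e]
      refine mul_le_mul_of_nonneg_right ?_ (ah_nonneg hQ _ _)
      have := Pr_le_one (Q := Q) (D := D) (η := η) hQ0 (Cr x m m)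
      have h5 : 1 ≤ C2 ^ 3 := one_le_pow₀ hC2
      linarith
    | succ k ih =>
      intro ρ h1 h2 h3
      have hn0ρ : n0 ≤ ρ := (le_max_left _ _).trans h2
      have hρ1 : 1 ≤ ρ := hn0.trans hn0ρ
      by_cases hm : m < 8 * ρ
      · -- comparable scales
        have h4 := ah_comp hQ hL hC2 hn0 hd (k := 3) (s := ρ) (l := m) hn0ρ (by omega) (by omega)
        have h5 := Pr_le_one (Q := Q) (D := D) (η := η) hQ0 (Cr x ρ m)
        have h6 := Pr_nonneg (Q := Q) (D := D) (η := η) hQ0 (Cr x ρ m)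
        have h7 := ah_nonneg hQ L ρ
        have h8 := ah_nonneg hQ L m
        calc Pr Q D η (Cr x ρ m) * ah Q L ρ ≤ 1 * ah Q L ρ := mul_le_mul_of_nonneg_right h5 h7
          _ = ah Q L ρ := one_mul _
          _ ≤ 8 * C2 ^ 3 * ah Q L m := h4
          _ ≤ _ := by nlinarith
      · push Not at hm
        have N := C.num hK1 (ρ := ρ) ((le_max_right _ _).trans h2)
        have hFm : Flt D η x m := hF.mono
          ((H192.Q.scale_le hL (r := m) (by omega) le_rfl).1.trans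
            (H192.Q.scale_le hL (r := m) (by omega) le_rfl).2)
        have hF2 : Flt D η x (L * (L * (2 * ρ))) := hF.mono (by
          have : L * (2 * ρ) ≤ L * m := mul_le_mul_of_nonneg_left (by omega) (by omega)
          exact mul_le_mul_of_nonneg_left this (by omega))
        have i1 := hit_sum C hL hC2 hK1 hK N (hd ρ hn0ρ) hx hη hF2
        have i2 := Cs.step2 (x := x) (m := m) N hK1 hη (hFm.mono (by omega)) (by omega)
        have i3 := ih (2 * ρ) (by omega) (by omega) (by omega)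
        have i4 := (cmp_ah hQ hL (d := m) (by omega) hx hη hF).1
        -- gluing
        have i5 : (∑ j ∈ gI (C.JJ K),
            Pr Q D η (Hit x (gr x (C.ht K ρ) (C.rr K ρ) j) (C.rr K ρ) (2 * ρ))) *
            (∑ j ∈ gI (C.JJ K), Pr Q D η (Out x (gr x (C.ht K ρ) (C.rr K ρ) j) (C.rr K ρ) m)) * cc ≤
            Nr * Nr * (8 * ah Q L m) := by
          rw [Finset.sum_mul_sum, Finset.sum_mul]
          have : ∀ j ∈ gI (C.JJ K), (∑ j' ∈ gI (C.JJ K),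
              Pr Q D η (Hit x (gr x (C.ht K ρ) (C.rr K ρ) j) (C.rr K ρ) (2 * ρ)) *
              Pr Q D η (Out x (gr x (C.ht K ρ) (C.rr K ρ) j') (C.rr K ρ) m)) * cc ≤
              Nr * (8 * ah Q L m) := by
            intro j hj
            rw [Finset.sum_mul]
            refine (Finset.sum_le_sum (g := fun _ => 8 * ah Q L m) fun j' hj' => ?_).trans ?_
            · rw [hcc, hn]
              exact (Cs.glue3 N hη hm hFm hx hj hj').trans i4
            · rw [Finset.sum_const, nsmul_eq_mul, ← hNr]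
          refine (Finset.sum_le_sum this).trans ?_
          rw [Finset.sum_const, nsmul_eq_mul, ← hNr]
          linarith
        obtain ⟨SO, hSO⟩ : ∃ SO : ℝ, SO = ∑ j ∈ gI (C.JJ K),
          Pr Q D η (Out x (gr x (C.ht K ρ) (C.rr K ρ) j) (C.rr K ρ) m) := ⟨_, rfl⟩
        obtain ⟨SH, hSH⟩ : ∃ SH : ℝ, SH = ∑ j ∈ gI (C.JJ K),
          Pr Q D η (Hit x (gr x (C.ht K ρ) (C.rr K ρ) j) (C.rr K ρ) (2 * ρ)) := ⟨_, rfl⟩
        rw [← hSO, ← hSH] at i5
        rw [← hSO] at i2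
        rw [← hSH] at i1
        have hSO0 : 0 ≤ SO := by rw [hSO]; exact Finset.sum_nonneg fun _ _ => Pr_nonneg hQ0 _
        obtain ⟨g, hg⟩ : ∃ g, g = Pr Q D η (Cr x ρ m) := ⟨_, rfl⟩
        obtain ⟨g2, hg2⟩ : ∃ g2, g2 = Pr Q D η (Cr x (2 * ρ) m) := ⟨_, rfl⟩
        have hg0 : 0 ≤ g := by rw [hg]; exact Pr_nonneg hQ0 _
        have hg20 : 0 ≤ g2 := by rw [hg2]; exact Pr_nonneg hQ0 _
        rw [← hg, ← hg2] at i2
        rw [← hg2] at i3
        rw [← hg]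
        obtain ⟨a2, ha2⟩ : ∃ a2, a2 = ah Q L (2 * ρ) := ⟨_, rfl⟩
        have ha20 : 0 ≤ a2 := by rw [ha2]; exact ah_nonneg hQ _ _
        have hdρ := hd ρ hn0ρ
        rw [← ha2] at i1 i3 hdρ
        obtain ⟨am, ham⟩ : ∃ am, am = ah Q L m := ⟨_, rfl⟩
        have ham0 : 0 ≤ am := by rw [ham]; exact ah_nonneg hQ _ _
        rw [← ham] at i3 i5 ⊢
        -- `a2 * SO ≤ 16 * (8 Nr²) / cc * am`
        have k1 : a2 * SO * cc ≤ 16 * (8 * (Nr * Nr)) * am := by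
          calc a2 * SO * cc ≤ 16 * SH * SO * cc := by
                refine mul_le_mul_of_nonneg_right ?_ hcc0.le
                exact mul_le_mul_of_nonneg_right i1 hSO0
            _ = 16 * (SH * SO * cc) := by ring
            _ ≤ 16 * (Nr * Nr * (8 * am)) := by linarith
            _ = _ := by ring
        have k2 : C2 * (a2 * SO) ≤ A1 * am := by
          rw [hA1, div_mul_eq_mul_div, le_div_iff₀ hcc0]
          calc C2 * (a2 * SO) * cc = C2 * (a2 * SO * cc) := by ring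
            _ ≤ C2 * (16 * (8 * (Nr * Nr)) * am) := mul_le_mul_of_nonneg_left k1 (by linarith)
            _ = _ := by ring
        have k3 : g * ah Q L ρ ≤ C2 * (g * a2) := by
          calc g * ah Q L ρ ≤ g * (C2 * a2) := mul_le_mul_of_nonneg_left hdρ hg0
            _ = _ := by ring
        have k4 : g * a2 ≤ a2 * SO + 2 * (1 - C.c) ^ K * (g2 * a2) := by
          calc g * a2 ≤ (SO + 2 * (1 - C.c) ^ K * g2) * a2 := mul_le_mul_of_nonneg_right i2 ha20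
            _ = _ := by ring
        have k5 : C2 * (2 * (1 - C.c) ^ K * (g2 * a2)) ≤ 1 / 2 * (g2 * a2) := by
          have e : 2 * (1 - C.c) ^ K * C2 ≤ 1 / 2 := by
            refine le_trans ?_ hK
            have : 0 ≤ (1 - C.c) ^ K := by positivity
            nlinarith
          calc C2 * (2 * (1 - C.c) ^ K * (g2 * a2)) = 2 * (1 - C.c) ^ K * C2 * (g2 * a2) := by ring
            _ ≤ _ := mul_le_mul_of_nonneg_right e (by positivity)
        have k6 : C2 * (g * a2) ≤ C2 * (a2 * SO) + C2 * (2 * (1 - C.c) ^ K * (g2 * a2)) := by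
          rw [← mul_add]
          exact mul_le_mul_of_nonneg_left k4 (by linarith)
        have k7 : 0 ≤ 8 * C2 ^ 3 * am := by positivity
        nlinarith
  intro ρ h1 h2
  exact main _ ρ le_rfl h1 h2

/-- **Arms reach macroscopic heights.** -/
theorem hgt_ge (C : Cs Q) {L : ℤ} (hL : Rat Q L) {C2 : ℝ} {n0 : ℤ} (hC2 : 1 ≤ C2) (hn0 : 1 ≤ n0)
    (hd : ∀ ρ : ℤ, n0 ≤ ρ → ah Q L ρ ≤ C2 * ah Q L (2 * ρ)) :
    ∃ (m0 : ℤ) (a : ℝ), 1 ≤ m0 ∧ 0 < a ∧ ∀ (x : Pt) (m : ℤ) (D : Finset Pt) (η : Cfg),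
      (x.1 + x.2) % 2 = 0 → Good η → m0 ≤ m → Flt D η x (L * (L * (13 * m))) →
      a * ah Q L m ≤ Pr Q D η (Hgt x m (13 * m)) := by
  have hQ := C.hQ
  have hQ0 := C.hQ0
  have hL2 := hL.1
  obtain ⟨K, hK1, hK⟩ := exists_K C hC2
  have hcL := C.hcL
  have hK1' : (1 : ℤ) ≤ K := by exact_mod_cast hK1
  have hK0 := C.hK0
  have hJ0 : 0 ≤ C.JJ K := by unfold Cs.JJ; positivity
  obtain ⟨n, hn⟩ : ∃ n : ℕ, n = (C.JJ K).toNat + 1 := ⟨_, rfl⟩
  have hn' : (n : ℤ) = C.JJ K + 1 := by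
    rw [hn]; push_cast; rw [Int.toNat_of_nonneg hJ0]
  obtain ⟨Nr, hNr⟩ : ∃ Nr : ℝ, Nr = ((gI (C.JJ K)).card : ℝ) := ⟨_, rfl⟩
  obtain ⟨cc, hcc⟩ : ∃ cc : ℝ, cc = C.cL ^ (n + 1) := ⟨_, rfl⟩
  have hcc0 : 0 < cc := by rw [hcc]; positivity
  have hNr0 : 0 < Nr := by
    rw [hNr]
    have : (gI (C.JJ K)).Nonempty := ⟨(0, 0), by
      rw [gI, Finset.mem_product, Finset.mem_Icc, Finset.mem_Icc]
      dsimp only
      omega⟩
    exact_mod_cast this.card_pos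
  refine ⟨max n0 (C.s0 * (5 * C.K0 * K) + 1), cc / (16 * Nr * C2), le_trans hn0 (le_max_left _ _),
    by positivity, fun x m D η hx hη hm hF => ?_⟩
  have hn0m : n0 ≤ m := (le_max_left _ _).trans hm
  have hm1 : 1 ≤ m := hn0.trans hn0m
  have N := C.num hK1 (ρ := m) ((le_max_right _ _).trans hm)
  have i1 := hit_sum C hL hC2 hK1 hK N (hd m hn0m) hx hη (hF.mono (by
    have : L * (2 * m) ≤ L * (13 * m) := mul_le_mul_of_nonneg_left (by omega) (by omega)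
    exact mul_le_mul_of_nonneg_left this (by omega)))
  have b1 := N.hJ
  have b2 := N.hJ'
  have b3 := N.hr1
  have b4 := N.hsρ
  have b5 := N.hR
  have b6 : C.rr K m ≤ m := by
    have b7 := N.hR1
    omega
  have enr : (n : ℤ) * C.rr K m = C.JJ K * C.rr K m + C.rr K m := by rw [hn']; ring
  have i2 : (∑ j ∈ gI (C.JJ K),
      Pr Q D η (Hit x (gr x (C.ht K m) (C.rr K m) j) (C.rr K m) (2 * m))) * cc ≤
      Nr * Pr Q D η (Hgt x m (13 * m)) := by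
    rw [Finset.sum_mul]
    refine (Finset.sum_le_sum (g := fun _ => Pr Q D η (Hgt x m (13 * m))) fun j hj => ?_).trans ?_
    · rw [hcc]
      refine Cs.glue4 N hη (n := n) (B := 13 * m) (by rw [enr]; omega) (by rw [enr]; omega)
        (hF.mono ?_) hx hj
      exact (H192.Q.scale_le hL (r := 13 * m) (by omega) le_rfl).1.trans
        (H192.Q.scale_le hL (r := 13 * m) (by omega) le_rfl).2
    · rw [Finset.sum_const, nsmul_eq_mul, ← hNr]
  have i3 := hd m hn0m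
  rw [div_mul_eq_mul_div, div_le_iff₀ (by positivity)]
  calc cc * ah Q L m ≤ cc * (C2 * ah Q L (2 * m)) := mul_le_mul_of_nonneg_left i3 hcc0.le
    _ ≤ cc * (C2 * (16 * ∑ j ∈ gI (C.JJ K),
        Pr Q D η (Hit x (gr x (C.ht K m) (C.rr K m) j) (C.rr K m) (2 * m)))) :=
        mul_le_mul_of_nonneg_left (mul_le_mul_of_nonneg_left i1 (by linarith)) hcc0.le
    _ = 16 * C2 * ((∑ j ∈ gI (C.JJ K),
        Pr Q D η (Hit x (gr x (C.ht K m) (C.rr K m) j) (C.rr K m) (2 * m))) * cc) := by ring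
    _ ≤ 16 * C2 * (Nr * Pr Q D η (Hgt x m (13 * m))) :=
        mul_le_mul_of_nonneg_left i2 (by positivity)
    _ = _ := by ring

end Vale.Agent.P167.H208
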