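import Vale.Agent.P167.H208.SmMain

/-!
# P167, general `q`, block Q-SRSW: the second moment, touching at a free flat side

`srswt_of : RegS Q L → SRSWt Q`.
-/

namespace Vale.Agent.P167.H208

open Finset Vale.Agent.P145.FB Vale.Agent.P153 Vale.Agent.P153.Topo Vale.Agent.P167
  Vale.Agent.P167.H632 Vale.Agent.P167.H871 Vale.Agent.P167.H704 Vale.Agent.P167.FK
  Vale.Agent.P167.FKA
open Vale.Agent.P167.H259 (f_markov f_fkg f_comp f_comp2 Ex_out)
open Vale.Agent.P167.H519 (Rat)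

variable {Q : ℝ}

theorem nm_self (x : Pt) : nm (x - x) = 0 := by rw [sub_self]; rfl

/-- An arm crosses the half annuli. -/
theorem am_cr {x : Pt} (hx : (x.1 + x.2) % 2 = 0) {σ m : ℤ} (hσ : 0 ≤ σ) (hm : σ ≤ m) {ω : Cfg}
    (h : ω ∈ Am x m) : ω ∈ Cr x σ m := by
  obtain ⟨v, h1, h2⟩ := h
  obtain ⟨z, z', k1, k2, k3, k4, k5⟩ := crossing (b := x) (r := σ) (R := m) hm h2
    (by rw [nm_self]; exact hσ) h1
  refine ⟨z, z', by rw [← k3.parity, hx], k1, k2.ge, k4.mono subset_rfl ?_⟩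
  rintro w ⟨⟨w1, w2⟩, w3⟩
  exact ⟨w3, w2⟩

theorem hgt_am {x : Pt} {m B : ℤ} (hm : 0 ≤ m) : Hgt x m B ⊆ Am x m := by
  rintro ω ⟨t, h1, h2⟩
  obtain ⟨y, n1, n2, n3⟩ := first_exit (b := x) (R := m) h2 (by rw [nm_self]; exact hm) (by
    rw [le_nm]; simp only [Prod.fst_sub, Prod.snd_sub]; omega)
  refine ⟨y, n1.ge, n2.mono subset_rfl ?_⟩
  rintro w ⟨⟨w1, w2⟩, w3⟩
  exact ⟨w3, w2⟩

/-- The sites of the segment. -/
def xi (x : Pt) (i : ℕ) : Pt := (x.1 + 2 * i, x.2)

theorem xi_par {x : Pt} (hx : (x.1 + x.2) % 2 = 0) (i : ℕ) : ((xi x i).1 + (xi x i).2) % 2 = 0 := by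
  simp only [xi]
  omega

/-- **The pair bound.** -/
theorem pair_le (C : Cs Q) {L : ℤ} (hL : Rat Q L) {C2 : ℝ} {n0 : ℤ} (hC2 : 1 ≤ C2) (hn0 : 1 ≤ n0)
    (hd : ∀ ρ : ℤ, n0 ≤ ρ → ah Q L ρ ≤ C2 * ah Q L (2 * ρ)) :
    ∃ (l0 : ℤ) (A : ℝ), 1 ≤ l0 ∧ 0 < A ∧ ∀ (x y : Pt) (m : ℤ) (D : Finset Pt) (η : Cfg),
      (x.1 + x.2) % 2 = 0 → (y.1 + y.2) % 2 = 0 → y.2 = x.2 → Good η →
      Flt D η x (L * (L * (2 * m))) → Flt D η y (L * (L * (2 * m))) →
      ∀ l : ℤ, l0 ≤ l → l ≤ m → |y.1 - x.1| = 2 * l →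
      Pr Q D η (Am x m ∩ Am y m) ≤ A * (ah Q L l * ah Q L m) := by
  have hQ := C.hQ
  have hQ0 := C.hQ0
  have hL2 := hL.1
  obtain ⟨ρ0, A1, hρ0, hA1, hit⟩ := iter C hL hC2 hn0 hd
  -- the exponent
  obtain ⟨k, hk⟩ : ∃ k : ℕ, 16 * (L * L) ≤ 2 ^ k := by
    obtain ⟨k, hk⟩ := pow_unbounded_of_one_lt (16 * (L * L)) (show (1 : ℤ) < 2 by norm_num)
    exact ⟨k, hk.le⟩
  obtain ⟨P, hP⟩ : ∃ P : ℝ, P = 8 * C2 ^ k := ⟨_, rfl⟩
  have hP1 : 8 ≤ P := by
    have : 1 ≤ C2 ^ k := one_le_pow₀ hC2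
    rw [hP]; linarith
  refine ⟨2 * (L * L) * max n0 ρ0, 64 * 64 * (P * P) * (A1 + 1), ?_, by positivity,
    fun x y m D η hx hy hyx hη hFx hFy l hl hlm ht => ?_⟩
  · have : 1 ≤ max n0 ρ0 := hn0.trans (le_max_left _ _)
    nlinarith
  obtain ⟨M, hM⟩ : ∃ M, M = L * L := ⟨_, rfl⟩
  have hM4 : 4 ≤ M := by rw [hM]; nlinarith
  rw [← hM] at hk hl
  obtain ⟨s, hs⟩ : ∃ s, s = l / (2 * M) := ⟨_, rfl⟩
  have s1 : s * (2 * M) ≤ l := by rw [hs]; exact Int.ediv_mul_le _ (by omega)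
  have s2 : l < (s + 1) * (2 * M) := by rw [hs]; exact Int.lt_ediv_add_one_mul_self _ (by omega)
  have s3 : max n0 ρ0 ≤ s := by
    rw [hs, Int.le_ediv_iff_mul_le (by omega)]
    linarith
  have s4 : n0 ≤ s := (le_max_left _ _).trans s3
  have s5 : 1 ≤ s := hn0.trans s4
  have hLLs : L * (L * s) = M * s := by rw [hM]; ring
  have hMs : M * s * 2 ≤ l := by nlinarith
  have hsM : s * 4 ≤ M * s := by nlinarith
  have hl2 : l ≤ 4 * M * s := by nlinarith
  have hkl : 2 * (2 * l) ≤ 2 ^ k * s := by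
    have : 16 * M * s ≤ 2 ^ k * s := mul_le_mul_of_nonneg_right hk (by omega)
    nlinarith
  have hl1 : 1 ≤ l := by omega
  -- comparison of `ah s`
  have c1 : ah Q L s ≤ P * ah Q L l := by
    rw [hP]; exact ah_comp hQ hL hC2 hn0 hd s4 hl1 (by omega)
  -- mixing
  have hFxs : Flt D η x (L * (L * s)) := hFx.mono (by rw [hLLs]; nlinarith)
  have hFys : Flt D η y (L * (L * s)) := hFy.mono (by rw [hLLs]; nlinarith)
  have a1 := (cmp_ah hQ hL s5 hx hη hFxs).1
  have a2 := (cmp_ah hQ hL s5 hy hη hFys).1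
  have hV : ∀ z : Pt, Flt D η z (L * (L * s)) → QM.HB z s ⊆ D := by
    intro z hz v hv
    rw [QM.HB, Finset.mem_filter] at hv
    exact (hz.dom v (H167.Q.bq_mono (by rw [hLLs]; omega) hv.1)).2 hv.2
  have hfr : ∀ z : Pt, Flt D η z (L * (L * s)) → H192.Q.Fr z (L * (L * s)) D η :=
    fun z hz v hv hvD => hz.out v hv hvD
  have mul_y : ∀ E : Set Cfg, IndE (D ∩ Bq y (L * (L * s))) E →
      Pr Q D η (E ∩ Am y s) ≤ 8 * (Pr Q D η E * Pr Q D η (Am y s)) := by
    intro E hE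
    have := (H192.Q.rat_bdy_mul hQ hL s5 (le_refl (L * (L * s))) (rfl : D ∩ Bq y (L * (L * s)) = _)
      (hV y hFys) (Finset.filter_subset _ _) (fun _ => ind_nonneg _ _) (loc_Am y s).loc hη hη
      (hfr y hFys) (hfr y hFys) (G := E.indicator 1) (fun _ => ind_nonneg _ _) hE.ind).1
    refine le_trans (le_of_eq ?_) this
    unfold Pr
    exact Ex_congr fun S _ => by rw [ind_inter]
  have mul_x : ∀ E : Set Cfg, IndE (D ∩ Bq x (L * (L * s))) E →
      Pr Q D η (E ∩ Am x s) ≤ 8 * (Pr Q D η E * Pr Q D η (Am x s)) := by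
    intro E hE
    have := (H192.Q.rat_bdy_mul hQ hL s5 (le_refl (L * (L * s))) (rfl : D ∩ Bq x (L * (L * s)) = _)
      (hV x hFxs) (Finset.filter_subset _ _) (fun _ => ind_nonneg _ _) (loc_Am x s).loc hη hη
      (hfr x hFxs) (hfr x hFxs) (G := E.indicator 1) (fun _ => ind_nonneg _ _) hE.ind).1
    refine le_trans (le_of_eq ?_) this
    unfold Pr
    exact Ex_congr fun S _ => by rw [ind_inter]
  have habs : y.1 - x.1 = 2 * l ∨ y.1 - x.1 = -(2 * l) := by
    rcases abs_choice (y.1 - x.1) with h | h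
    · left; omega
    · right; omega
  have dxy : IndE (D ∩ Bq y (L * (L * s))) (Am x s) := by
    refine (loc_Am x s).indE ?_
    rw [Finset.disjoint_left]
    intro v hv hv'
    rw [QM.HB, Finset.mem_filter, H167.Q.mem_Bq] at hv
    rw [hLLs, Finset.mem_inter, H167.Q.mem_Bq] at hv'
    omega
  have hah : ∀ d, 0 ≤ ah Q L d := ah_nonneg hQ L
  obtain ⟨al, hal⟩ : ∃ al, al = ah Q L l := ⟨_, rfl⟩
  obtain ⟨am, ham⟩ : ∃ am, am = ah Q L m := ⟨_, rfl⟩
  obtain ⟨as, has⟩ : ∃ as, as = ah Q L s := ⟨_, rfl⟩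
  have al0 : 0 ≤ al := by rw [hal]; exact hah _
  have am0 : 0 ≤ am := by rw [ham]; exact hah _
  have as0 : 0 ≤ as := by rw [has]; exact hah _
  rw [← has] at a1 a2 c1
  rw [← hal] at c1 ⊢
  rw [← ham]
  have hPax := Pr_nonneg (Q := Q) (D := D) (η := η) hQ0 (Am x s)
  have hPay := Pr_nonneg (Q := Q) (D := D) (η := η) hQ0 (Am y s)
  have hsm : s ≤ m := by omega
  by_cases hσ : 2 * (2 * l) ≤ m
  · -- the pair is close
    obtain ⟨σ, hσe⟩ : ∃ σ, σ = 2 * (2 * l) := ⟨_, rfl⟩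
    rw [← hσe] at hσ hkl
    have cy : IndE (D ∩ Bq y (L * (L * s))) (Cr x σ m) := by
      refine (ind_Cr x σ m).mono ?_
      intro v hv
      rw [hLLs, Finset.mem_inter, H167.Q.mem_Bq] at hv
      rw [H167.Q.mem_Bq]
      omega
    have cx : IndE (D ∩ Bq x (L * (L * s))) (Cr x σ m) := by
      refine (ind_Cr x σ m).mono ?_
      intro v hv
      rw [hLLs, Finset.mem_inter, H167.Q.mem_Bq] at hv
      rw [H167.Q.mem_Bq]
      omega
    have e1 := mul_y (Cr x σ m ∩ Am x s) (cy.inter dxy)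
    have e2 := mul_x (Cr x σ m) cx
    have e3 : Pr Q D η (Am x m ∩ Am y m) ≤ Pr Q D η (Cr x σ m ∩ Am x s ∩ Am y s) := by
      refine Pr_mono hQ0 ?_
      rintro ω ⟨w1, w2⟩
      exact ⟨⟨am_cr hx (by omega) hσ w1, am_anti (by omega) hsm w1⟩, am_anti (by omega) hsm w2⟩
    have e4 := hit x m D η hx hη (hFx.mono (by
      have : L * m ≤ L * (2 * m) := mul_le_mul_of_nonneg_left (by omega) (by omega)
      exact mul_le_mul_of_nonneg_left this (by omega))) σ (by
        have := le_max_right n0 ρ0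
        omega) hσ
    have c2 : as ≤ P * ah Q L σ := by
      rw [hP, has]; exact ah_comp hQ hL hC2 hn0 hd s4 (by omega) hkl
    obtain ⟨g, hg⟩ : ∃ g, g = Pr Q D η (Cr x σ m) := ⟨_, rfl⟩
    have hg0 : 0 ≤ g := by rw [hg]; exact Pr_nonneg hQ0 _
    rw [← hg] at e2 e4
    rw [← ham] at e4
    have f1 : Pr Q D η (Cr x σ m ∩ Am x s) ≤ 64 * (P * (A1 * am)) := by
      calc Pr Q D η (Cr x σ m ∩ Am x s) ≤ 8 * (g * Pr Q D η (Am x s)) := e2
        _ ≤ 8 * (g * (8 * as)) := by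
            refine mul_le_mul_of_nonneg_left (mul_le_mul_of_nonneg_left a1 hg0) (by norm_num)
        _ ≤ 8 * (g * (8 * (P * ah Q L σ))) := by
            refine mul_le_mul_of_nonneg_left (mul_le_mul_of_nonneg_left ?_ hg0) (by norm_num)
            linarith
        _ = 64 * (P * (g * ah Q L σ)) := by ring
        _ ≤ _ := by
            refine mul_le_mul_of_nonneg_left (mul_le_mul_of_nonneg_left e4 (by linarith))
              (by norm_num)
    calc Pr Q D η (Am x m ∩ Am y m) ≤ 8 * (Pr Q D η (Cr x σ m ∩ Am x s) * Pr Q D η (Am y s)) :=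
          e3.trans e1
      _ ≤ 8 * (64 * (P * (A1 * am)) * (8 * (P * al))) := by
          refine mul_le_mul_of_nonneg_left (mul_le_mul f1 (by linarith) hPay (by positivity))
            (by norm_num)
      _ = 64 * 64 * (P * P) * A1 * (al * am) := by ring
      _ ≤ 64 * 64 * (P * P) * (A1 + 1) * (al * am) := by
          refine mul_le_mul_of_nonneg_right ?_ (by positivity)
          refine mul_le_mul_of_nonneg_left (by linarith) (by positivity)
  · -- macroscopic distance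
    push Not at hσ
    have e1 := mul_y (Am x s) dxy
    have e3 : Pr Q D η (Am x m ∩ Am y m) ≤ Pr Q D η (Am x s ∩ Am y s) := by
      refine Pr_mono hQ0 ?_
      rintro ω ⟨w1, w2⟩
      exact ⟨am_anti (by omega) hsm w1, am_anti (by omega) hsm w2⟩
    have c2 : as ≤ P * am := by
      rw [hP, has, ham]; exact ah_comp hQ hL hC2 hn0 hd s4 (by omega) (by omega)
    calc Pr Q D η (Am x m ∩ Am y m) ≤ 8 * (Pr Q D η (Am x s) * Pr Q D η (Am y s)) := e3.trans e1
      _ ≤ 8 * (8 * (P * am) * (8 * (P * al))) := by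
          refine mul_le_mul_of_nonneg_left (mul_le_mul (by linarith) (by linarith) hPay
            (by positivity)) (by norm_num)
      _ = 8 * 64 * (P * P) * (al * am) := by ring
      _ ≤ 64 * 64 * (P * P) * (A1 + 1) * (al * am) := by
          refine mul_le_mul_of_nonneg_right ?_ (by positivity)
          have h1 : 0 ≤ P * P := by positivity
          nlinarith [mul_nonneg h1 hA1.le]

/-- Sums over the differences. -/
theorem sum_diff {φ : ℕ → ℝ} (h0 : ∀ i, 0 ≤ φ i) (M i : ℕ) (hi : i ≤ M) :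
    ∑ j ∈ Finset.range (M + 1), φ (if i ≤ j then j - i else i - j) ≤
      2 * ∑ l ∈ Finset.range (M + 1), φ l := by
  rw [← Finset.sum_filter_add_sum_filter_not (Finset.range (M + 1)) (fun j => i ≤ j), two_mul]
  refine add_le_add ?_ ?_
  · calc ∑ j ∈ (Finset.range (M + 1)).filter (fun j => i ≤ j), φ (if i ≤ j then j - i else i - j)
        = ∑ j ∈ (Finset.range (M + 1)).filter (fun j => i ≤ j), φ (j - i) := by
          refine Finset.sum_congr rfl fun j hj => ?_
          rw [if_pos (Finset.mem_filter.1 hj).2]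
      _ = ∑ l ∈ ((Finset.range (M + 1)).filter (fun j => i ≤ j)).image (fun j => j - i), φ l := by
          rw [Finset.sum_image]
          intro a ha b hb hab
          simp only [Finset.coe_filter, Finset.mem_range, Set.mem_ofPred_eq] at ha hb
          dsimp only at hab
          omega
      _ ≤ _ := by
          refine Finset.sum_le_sum_of_subset_of_nonneg ?_ fun _ _ _ => h0 _
          intro l hl
          rw [Finset.mem_image] at hl
          obtain ⟨j, hj, rfl⟩ := hl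
          rw [Finset.mem_filter, Finset.mem_range] at hj
          rw [Finset.mem_range]
          omega
  · calc ∑ j ∈ (Finset.range (M + 1)).filter (fun j => ¬ i ≤ j),
          φ (if i ≤ j then j - i else i - j)
        = ∑ j ∈ (Finset.range (M + 1)).filter (fun j => ¬ i ≤ j), φ (i - j) := by
          refine Finset.sum_congr rfl fun j hj => ?_
          rw [if_neg (Finset.mem_filter.1 hj).2]
      _ = ∑ l ∈ ((Finset.range (M + 1)).filter (fun j => ¬ i ≤ j)).image (fun j => i - j), φ l := by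
          rw [Finset.sum_image]
          intro a ha b hb hab
          simp only [Finset.coe_filter, Finset.mem_range, Set.mem_ofPred_eq] at ha hb
          dsimp only at hab
          omega
      _ ≤ _ := by
          refine Finset.sum_le_sum_of_subset_of_nonneg ?_ fun _ _ _ => h0 _
          intro l hl
          rw [Finset.mem_image] at hl
          obtain ⟨j, hj, rfl⟩ := hl
          rw [Finset.mem_filter, Finset.mem_range] at hj
          rw [Finset.mem_range]
          omega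

end Vale.Agent.P167.H208
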