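import Vale.Agent.P167.H208.SmCov
import Vale.Agent.P167.H208.SmLink

/-!
# P167, general `q`, block Q-SRSW: one step of the iteration
-/

namespace Vale.Agent.P167.H208

open Finset Vale.Agent.P145.FB Vale.Agent.P153 Vale.Agent.P153.Topo Vale.Agent.P167
  Vale.Agent.P167.H632 Vale.Agent.P167.H871 Vale.Agent.P167.H704 Vale.Agent.P167.FK
  Vale.Agent.P167.FKA
open Vale.Agent.P167.H259 (f_markov f_fkg f_comp f_comp2 Ex_out)

variable {Q : ℝ} {D : Finset Pt} {η : Cfg}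

/-- The constants of the construction. -/
structure Cs (Q : ℝ) where
  K0 : ℤ
  cL : ℝ
  c : ℝ
  s0 : ℤ
  hQ : 1 ≤ Q
  hK0 : 1 ≤ K0
  hcL : 0 < cL
  hc : 0 < c
  hc1 : c ≤ 1
  hs0 : 1 ≤ s0
  lnk : ∀ (z : Pt) (r : ℤ) (D : Finset Pt) (η : Cfg), s0 ≤ r → Good η →
    Bq z (K0 * (2 * r + 1) + 2 * r) ⊆ D → cL ≤ Pr Q D η (Lnk z r (K0 * (2 * r + 1)))
  low : ∀ (K : ℕ) (a f s : ℤ) (D : Finset Pt) (η : Cfg) (G : Cfg → ℝ), s0 ≤ s → Good η →
    blk a (a + K * s) f (f + 2 * s) ⊆ D →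
    (∀ v : Pt, a ≤ v.1 → v.1 < a + K * s → f - s ≤ v.2 → v.2 < f → v ∉ D ∧ η v = false) →
    (∀ ω, 0 ≤ G ω) → Ind (blk a (a + K * s) f (f + 2 * s)) G →
    Ex Q D η (fun ω => G ω * (Hc true a (a + K * s) f (f + s)).indicator 1 ω) ≤
      (1 - c) ^ K * Ex Q D η G

theorem exists_cs (hQ : 1 ≤ Q) (h : RSW Q) : Nonempty (Cs Q) := by
  obtain ⟨K0, cL, s1, h1, h2, -, h3, h4⟩ := lnk_ge hQ h
  obtain ⟨c, s2, k1, k2, k3, k4⟩ := low_le hQ h
  exact ⟨⟨K0, cL, c, max s1 s2, hQ, h1, h2, k1, k2, h3.trans (le_max_left _ _),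
    fun z r D η hr => h4 z r D η ((le_max_left _ _).trans hr),
    fun K a f s D η G hs => k4 K a f s D η G ((le_max_right _ _).trans hs)⟩⟩

namespace Cs

variable (C : Cs Q)

include C in
theorem hQ0 : 0 < Q := by have := C.hQ; linarith

/-- Both low crossings. -/
theorem low2 {K : ℕ} {x : Pt} {ρ s : ℤ} {G : Cfg → ℝ} (hK : 1 ≤ K) (hs : C.s0 ≤ s)
    (hKs : K * s ≤ ρ - 1) (hη : Good η) (hF : Flt D η x (2 * ρ)) (hG0 : ∀ ω, 0 ≤ G ω)
    (hG : Ind (blk (x.1 + ρ) (x.1 + ρ + K * s) x.2 (x.2 + 2 * s)) G)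
    (hG' : Ind (blk (x.1 - ρ - K * s) (x.1 - ρ) x.2 (x.2 + 2 * s)) G) :
    Ex Q D η (fun ω => G ω * (Low x ρ s).indicator 1 ω) ≤ 2 * (1 - C.c) ^ K * Ex Q D η G := by
  have hQ0 := C.hQ0
  have hs0 := C.hs0
  have hK' : (1 : ℤ) ≤ K := by exact_mod_cast hK
  have hsK : s ≤ K * s := by nlinarith
  have i1 := C.low K (x.1 + ρ) x.2 s D η G hs hη (by
      intro v hv
      rw [mem_blk] at hv
      exact (hF.dom v (by rw [H167.Q.mem_Bq]; omega)).2 (by omega))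
    (fun v h1 h2 h3 h4 => by
      have hv : v ∈ Bq x (2 * ρ) := by rw [H167.Q.mem_Bq]; omega
      have h5 : v ∉ D := fun h => by have := (hF.dom v hv).1 h; omega
      exact ⟨h5, hF.out v hv h5⟩) hG0 hG
  have e1 : x.1 - ρ = x.1 - ρ - K * s + K * s := by ring
  have i2 := C.low K (x.1 - ρ - K * s) x.2 s D η G hs hη (by
      intro v hv
      rw [mem_blk] at hv
      exact (hF.dom v (by rw [H167.Q.mem_Bq]; omega)).2 (by omega))
    (fun v h1 h2 h3 h4 => by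
      have hv : v ∈ Bq x (2 * ρ) := by rw [H167.Q.mem_Bq]; omega
      have h5 : v ∉ D := fun h => by have := (hF.dom v hv).1 h; omega
      exact ⟨h5, hF.out v hv h5⟩) hG0 (by rw [← e1]; exact hG')
  rw [← e1] at i2
  have key : Ex Q D η (fun ω => G ω * (Low x ρ s).indicator 1 ω) ≤
      Ex Q D η (fun ω => G ω * (Hc true (x.1 + ρ) (x.1 + ρ + K * s) x.2 (x.2 + s)).indicator 1 ω +
        G ω * (Hc true (x.1 - ρ - K * s) (x.1 - ρ) x.2 (x.2 + s)).indicator 1 ω) := by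
    refine Ex_mono hQ0 fun S _ => ?_
    rw [← mul_add]
    refine mul_le_mul_of_nonneg_left ?_ (hG0 _)
    by_cases hω : cf D η S ∈ Low x ρ s
    · rw [Set.indicator_of_mem hω]
      rcases hω with hω | hω
      · have h1 := (hc_split (m := x.1 + ρ + K * s) (by omega) (by omega) hω).1
        rw [Set.indicator_of_mem h1]
        have := ind_nonneg (Hc true (x.1 - ρ - K * s) (x.1 - ρ) x.2 (x.2 + s)) (cf D η S)
        simp only [Pi.one_apply]
        linarith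
      · have h1 := (hc_split (m := x.1 - ρ - K * s) (by omega) (by omega) hω).2
        rw [Set.indicator_of_mem h1]
        have := ind_nonneg (Hc true (x.1 + ρ) (x.1 + ρ + K * s) x.2 (x.2 + s)) (cf D η S)
        simp only [Pi.one_apply]
        linarith
    · rw [Set.indicator_of_notMem hω]
      exact add_nonneg (ind_nonneg _ _) (ind_nonneg _ _)
  rw [Ex_add] at key
  linarith

/-- The radius of the small boxes. -/
def rr (K : ℕ) (ρ : ℤ) : ℤ := (ρ - 1) / (5 * C.K0 * K)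

/-- The height. -/
def ht (K : ℕ) (ρ : ℤ) : ℤ := 5 * C.K0 * C.rr K ρ

/-- The size of the grid. -/
def JJ (K : ℕ) : ℤ := 20 * C.K0 * K

/-- Numerical facts. -/
structure Num (K : ℕ) (ρ : ℤ) : Prop where
  hr : C.s0 ≤ C.rr K ρ
  hr1 : 1 ≤ C.rr K ρ
  hs : C.s0 ≤ C.ht K ρ
  hKs : K * C.ht K ρ ≤ ρ - 1
  hρ : 1 ≤ ρ
  hsρ : C.ht K ρ ≤ ρ - 1
  hs0 : 0 ≤ C.ht K ρ
  hJ : 2 * ρ ≤ C.JJ K * C.rr K ρ
  hJ' : C.JJ K * C.rr K ρ ≤ 4 * (ρ - 1)
  hR : C.K0 * (2 * C.rr K ρ + 1) + 2 * C.rr K ρ ≤ C.ht K ρ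
  hR1 : 2 * C.rr K ρ + 1 ≤ C.K0 * (2 * C.rr K ρ + 1)

theorem num {K : ℕ} (hK : 1 ≤ K) {ρ : ℤ} (hρ : C.s0 * (5 * C.K0 * K) + 1 ≤ ρ) : C.Num K ρ := by
  have hK' : (1 : ℤ) ≤ K := by exact_mod_cast hK
  have hK0 := C.hK0
  have hs0 := C.hs0
  obtain ⟨M, hM⟩ : ∃ M, M = 5 * C.K0 * K := ⟨_, rfl⟩
  have hM5 : 5 * C.K0 ≤ M := by rw [hM]; nlinarith
  have hM1 : 1 ≤ M := by omega
  obtain ⟨r, hr⟩ : ∃ r, r = C.rr K ρ := ⟨_, rfl⟩
  have hr' : r = (ρ - 1) / M := by rw [hr, rr, hM]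
  rw [← hM] at hρ
  have r1 : C.s0 ≤ r := by
    rw [hr', Int.le_ediv_iff_mul_le (by omega)]
    omega
  have r2 : r * M ≤ ρ - 1 := by rw [hr']; exact Int.ediv_mul_le _ (by omega)
  have r3 : ρ - 1 < (r + 1) * M := by
    rw [hr']; exact Int.lt_ediv_add_one_mul_self _ (by omega)
  have hh : C.ht K ρ = 5 * C.K0 * r := by rw [ht, hr]
  have hJJ : C.JJ K = 4 * M := by rw [JJ, hM]; ring
  have rr1 : 1 ≤ r := hs0.trans r1
  have e1 : (K : ℤ) * (5 * C.K0 * r) = r * M := by rw [hM]; ring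
  have hrK : 5 * C.K0 * r ≤ K * (5 * C.K0 * r) := by
    have : 0 ≤ 5 * C.K0 * r := by positivity
    nlinarith
  have hMr : M ≤ r * M := by nlinarith
  constructor
  · rw [← hr]; exact r1
  · rw [← hr]; exact rr1
  · rw [hh]; nlinarith
  · rw [hh, e1]; exact r2
  · nlinarith
  · rw [hh]; omega
  · rw [hh]; positivity
  · rw [hJJ, ← hr]; nlinarith
  · rw [hJJ, ← hr]; nlinarith
  · rw [hh, ← hr]; nlinarith
  · rw [← hr]; nlinarith

variable {C} {K : ℕ} {x : Pt} {ρ m : ℤ}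

/-- **Step for the arms.** -/
theorem step1 (N : C.Num K ρ) (hK : 1 ≤ K) (hη : Good η) (hF : Flt D η x (2 * ρ))
    (hx : (x.1 + x.2) % 2 = 0) :
    Pr Q D η (Am x (2 * ρ)) ≤ ∑ j ∈ gI (C.JJ K),
      Pr Q D η (Hit x (gr x (C.ht K ρ) (C.rr K ρ) j) (C.rr K ρ) (2 * ρ)) +
      2 * (1 - C.c) ^ K * Pr Q D η (Am x ρ) := by
  have hQ0 := C.hQ0
  have h1 := C.low2 (G := (Am x ρ).indicator 1) hK N.hs N.hKs hη hF (fun _ => ind_nonneg _ _)
    (((loc_Am x ρ).indE (by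
      rw [Finset.disjoint_left]
      intro v hv hv'
      rw [QM.HB, Finset.mem_filter, H167.Q.mem_Bq] at hv
      rw [mem_blk] at hv'
      omega)).ind) (((loc_Am x ρ).indE (by
      rw [Finset.disjoint_left]
      intro v hv hv'
      rw [QM.HB, Finset.mem_filter, H167.Q.mem_Bq] at hv
      rw [mem_blk] at hv'
      omega)).ind)
  refine le_trans ?_ (add_le_add_right h1 _)
  unfold Pr
  rw [← Ex_sum, ← Ex_add]
  refine Ex_mono hQ0 fun S _ => ?_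
  by_cases hω : cf D η S ∈ Am x (2 * ρ)
  · rw [Set.indicator_of_mem hω]
    have hsum : 0 ≤ ∑ j ∈ gI (C.JJ K),
        (Hit x (gr x (C.ht K ρ) (C.rr K ρ) j) (C.rr K ρ) (2 * ρ)).indicator (1 : Cfg → ℝ)
          (cf D η S) := Finset.sum_nonneg fun _ _ => ind_nonneg _ _
    rcases cov1 N.hρ N.hs0 (by have := N.hsρ; omega) N.hr1 N.hJ hx hω with ⟨j, hj, hj'⟩ | ⟨h2, h3⟩
    · have h4 := Finset.single_le_sum (f := fun j =>
        (Hit x (gr x (C.ht K ρ) (C.rr K ρ) j) (C.rr K ρ) (2 * ρ)).indicator (1 : Cfg → ℝ)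
          (cf D η S)) (fun _ _ => ind_nonneg _ _) hj
      rw [Set.indicator_of_mem hj'] at h4
      have h5 := mul_nonneg (ind_nonneg (Am x ρ) (cf D η S)) (ind_nonneg (Low x ρ (C.ht K ρ)) (cf D η S))
      simp only [Pi.one_apply] at h4 ⊢
      linarith
    · rw [Set.indicator_of_mem h2, Set.indicator_of_mem h3]
      simp only [Pi.one_apply, mul_one]
      linarith
  · rw [Set.indicator_of_notMem hω]
    exact add_nonneg (Finset.sum_nonneg fun _ _ => ind_nonneg _ _)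
      (mul_nonneg (ind_nonneg _ _) (ind_nonneg _ _))

/-- **Step for the crossings.** -/
theorem step2 (N : C.Num K ρ) (hK : 1 ≤ K) (hη : Good η) (hF : Flt D η x (2 * ρ))
    (hm : 2 * ρ ≤ m) :
    Pr Q D η (Cr x ρ m) ≤ ∑ j ∈ gI (C.JJ K),
      Pr Q D η (Out x (gr x (C.ht K ρ) (C.rr K ρ) j) (C.rr K ρ) m) +
      2 * (1 - C.c) ^ K * Pr Q D η (Cr x (2 * ρ) m) := by
  have hQ0 := C.hQ0
  have hKs := N.hKs
  have hsρ := N.hsρ
  have hs0 := N.hs0
  have h1 := C.low2 (G := (Cr x (2 * ρ) m).indicator 1) hK N.hs N.hKs hη hF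
    (fun _ => ind_nonneg _ _)
    (((ind_Cr x (2 * ρ) m).mono (by
      intro v hv
      rw [mem_blk] at hv
      rw [H167.Q.mem_Bq]
      omega)).ind) (((ind_Cr x (2 * ρ) m).mono (by
      intro v hv
      rw [mem_blk] at hv
      rw [H167.Q.mem_Bq]
      omega)).ind)
  refine le_trans ?_ (add_le_add_right h1 _)
  unfold Pr
  rw [← Ex_sum, ← Ex_add]
  refine Ex_mono hQ0 fun S _ => ?_
  by_cases hω : cf D η S ∈ Cr x ρ m
  · rw [Set.indicator_of_mem hω]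
    have hsum : 0 ≤ ∑ j ∈ gI (C.JJ K),
        (Out x (gr x (C.ht K ρ) (C.rr K ρ) j) (C.rr K ρ) m).indicator (1 : Cfg → ℝ)
          (cf D η S) := Finset.sum_nonneg fun _ _ => ind_nonneg _ _
    rcases cov2 N.hρ N.hs0 (by omega) N.hr1 N.hJ hm hω with ⟨j, hj, hj'⟩ | ⟨h2, h3⟩
    · have h4 := Finset.single_le_sum (f := fun j =>
        (Out x (gr x (C.ht K ρ) (C.rr K ρ) j) (C.rr K ρ) m).indicator (1 : Cfg → ℝ)
          (cf D η S)) (fun _ _ => ind_nonneg _ _) hj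
      rw [Set.indicator_of_mem hj'] at h4
      have h5 := mul_nonneg (ind_nonneg (Cr x (2 * ρ) m) (cf D η S))
        (ind_nonneg (Low x ρ (C.ht K ρ)) (cf D η S))
      simp only [Pi.one_apply] at h4 ⊢
      linarith
    · rw [Set.indicator_of_mem h2, Set.indicator_of_mem h3]
      simp only [Pi.one_apply, mul_one]
      linarith
  · rw [Set.indicator_of_notMem hω]
    exact add_nonneg (Finset.sum_nonneg fun _ _ => ind_nonneg _ _)
      (mul_nonneg (ind_nonneg _ _) (ind_nonneg _ _))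

end Cs

end Vale.Agent.P167.H208
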