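import Vale.Agent.P167.H208.SmSec

/-!
# P167, general `q`, block Q-SRSW: touching at a free flat side from the regularity
-/

namespace Vale.Agent.P167.H208

open Finset Vale.Agent.P145.FB Vale.Agent.P153 Vale.Agent.P153.Topo Vale.Agent.P167
  Vale.Agent.P167.H632 Vale.Agent.P167.H871 Vale.Agent.P167.H704 Vale.Agent.P167.FK
  Vale.Agent.P167.FKA
open Vale.Agent.P167.H259 (f_markov f_fkg f_comp f_comp2 Ex_out)
open Vale.Agent.P167.H519 (Rat)

variable {Q : ℝ}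

theorem sum_cast {f : ℤ → ℝ} (h0 : ∀ d, 0 ≤ f d) {M : ℕ} {m : ℤ} (hM : (M : ℤ) ≤ m) :
    ∑ l ∈ Finset.range (M + 1), (if 1 ≤ l then f (l : ℤ) else 0) ≤ ∑ d ∈ Finset.Icc 1 m, f d := by
  rw [← Finset.sum_filter]
  calc ∑ l ∈ (Finset.range (M + 1)).filter (fun l => 1 ≤ l), f (l : ℤ)
      = ∑ d ∈ ((Finset.range (M + 1)).filter (fun l => 1 ≤ l)).image (fun l : ℕ => (l : ℤ)), f d := by
        rw [Finset.sum_image]
        intro a _ b _ hab
        dsimp only at hab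
        exact_mod_cast hab
    _ ≤ _ := by
        refine Finset.sum_le_sum_of_subset_of_nonneg ?_ fun _ _ _ => h0 _
        intro d hd
        rw [Finset.mem_image] at hd
        obtain ⟨l, hl, rfl⟩ := hd
        rw [Finset.mem_filter, Finset.mem_range] at hl
        rw [Finset.mem_Icc]
        omega

theorem sum_small {l0 : ℤ} (hl0 : 0 ≤ l0) {b : ℝ} (hb : 0 ≤ b) (M : ℕ) :
    ∑ l ∈ Finset.range (M + 1), (if (l : ℤ) < l0 then b else 0) ≤ l0 * b := by
  rw [← Finset.sum_filter, Finset.sum_const, nsmul_eq_mul]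
  refine mul_le_mul_of_nonneg_right ?_ hb
  have h1 : ((Finset.range (M + 1)).filter (fun l : ℕ => (l : ℤ) < l0)).card ≤ l0.toNat := by
    refine (Finset.card_le_card (t := Finset.range l0.toNat) ?_).trans (by rw [Finset.card_range])
    intro l hl
    rw [Finset.mem_filter, Finset.mem_range] at hl
    rw [Finset.mem_range]
    omega
  have h2 : ((l0.toNat : ℤ)) = l0 := Int.toNat_of_nonneg hl0
  calc (((Finset.range (M + 1)).filter (fun l : ℕ => (l : ℤ) < l0)).card : ℝ) ≤ (l0.toNat : ℝ) := by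
        exact_mod_cast h1
    _ = ((l0.toNat : ℤ) : ℝ) := by push_cast; rfl
    _ = l0 := by rw [h2]

/-- The bound for the pairs at distance `2 l`. -/
noncomputable def phi (A am : ℝ) (l0 : ℤ) (h : ℤ → ℝ) (l : ℕ) : ℝ :=
  (if (l : ℤ) < l0 then 8 * am else 0) + A * am * (if 1 ≤ l then h (l : ℤ) else 0)

theorem phi_right {A am : ℝ} {h : ℤ → ℝ} (hA : 0 ≤ A) (ham : 0 ≤ am) (h0 : ∀ d, 0 ≤ h d) (l : ℕ) :
    0 ≤ A * am * (if 1 ≤ l then h (l : ℤ) else 0) := by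
  refine mul_nonneg (mul_nonneg hA ham) ?_
  split_ifs
  · exact h0 _
  · exact le_rfl

theorem phi_nonneg {A am : ℝ} {l0 : ℤ} {h : ℤ → ℝ} (hA : 0 ≤ A) (ham : 0 ≤ am)
    (h0 : ∀ d, 0 ≤ h d) (l : ℕ) : 0 ≤ phi A am l0 h l := by
  refine add_nonneg ?_ (phi_right hA ham h0 l)
  split_ifs
  · linarith
  · exact le_rfl

theorem phi_lt {A am : ℝ} {l0 : ℤ} {h : ℤ → ℝ} (hA : 0 ≤ A) (ham : 0 ≤ am)
    (h0 : ∀ d, 0 ≤ h d) {l : ℕ} (hl : (l : ℤ) < l0) : 8 * am ≤ phi A am l0 h l := by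
  have := phi_right hA ham h0 l
  unfold phi
  rw [if_pos hl]
  linarith

theorem phi_ge {A am : ℝ} {l0 : ℤ} {h : ℤ → ℝ} {l : ℕ} (hl : ¬ (l : ℤ) < l0) (hl1 : 1 ≤ l) :
    phi A am l0 h l = A * am * h l := by
  unfold phi
  rw [if_neg hl, if_pos hl1, zero_add]

theorem phi_sum {A am : ℝ} {l0 : ℤ} {h : ℤ → ℝ} (hA : 0 ≤ A) (ham : 0 ≤ am)
    (h0 : ∀ d, 0 ≤ h d) (hl0 : 0 ≤ l0) {M : ℕ} {m : ℤ} (hM : (M : ℤ) ≤ m) :
    ∑ l ∈ Finset.range (M + 1), phi A am l0 h l ≤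
      l0 * (8 * am) + A * am * ∑ d ∈ Finset.Icc 1 m, h d := by
  unfold phi
  rw [Finset.sum_add_distrib, ← Finset.mul_sum]
  refine add_le_add (sum_small hl0 (by linarith) M) ?_
  exact mul_le_mul_of_nonneg_left (sum_cast h0 hM) (mul_nonneg hA ham)

/-- The number of the good sites. -/
noncomputable def Nf (x : Pt) (m B : ℤ) (M : ℕ) (ω : Cfg) : ℝ :=
  ∑ i ∈ Finset.range (M + 1), (Hgt (xi x i) m B).indicator 1 ω

theorem Nf_Ex {D : Finset Pt} {η : Cfg} {x : Pt} {m B : ℤ} {M : ℕ} :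
    Ex Q D η (Nf x m B M) = ∑ i ∈ Finset.range (M + 1), Pr Q D η (Hgt (xi x i) m B) := by
  unfold Nf Pr
  rw [Ex_sum]

theorem Nf_Ex2 {D : Finset Pt} {η : Cfg} {x : Pt} {m B : ℤ} {M : ℕ} :
    Ex Q D η (fun ω => Nf x m B M ω * Nf x m B M ω) = ∑ i ∈ Finset.range (M + 1),
      ∑ j ∈ Finset.range (M + 1), Pr Q D η (Hgt (xi x i) m B ∩ Hgt (xi x j) m B) := by
  unfold Pr
  rw [← Finset.sum_congr rfl fun i _ => Ex_sum (Q := Q) (D := D) (η := η)
    (Finset.range (M + 1)) fun j => (Hgt (xi x i) m B ∩ Hgt (xi x j) m B).indicator 1]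
  rw [← Ex_sum]
  refine Ex_congr fun S _ => ?_
  unfold Nf
  rw [Finset.sum_mul_sum]
  refine Finset.sum_congr rfl fun i _ => Finset.sum_congr rfl fun j _ => ?_
  rw [ind_inter]

theorem Nf_zero {x : Pt} {m B B' : ℤ} {M : ℕ} (hM : 2 * (M : ℤ) ≤ m) (hB : B + m ≤ B')
    (hx : (x.1 + x.2) % 2 = 0) {ω : Cfg} (h : ω ∉ Tch x m B') : Nf x m B M ω = 0 := by
  unfold Nf
  refine Finset.sum_eq_zero fun i hi => ?_
  rw [Set.indicator_of_notMem]
  rintro ⟨t', k1, k2⟩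
  apply h
  have hi' := Finset.mem_range.1 hi
  refine ⟨xi x i, t', xi_par hx i, rfl, ?_, k1, k2.mono subset_rfl ?_⟩
  · rw [nm_le]
    simp only [xi, Prod.fst_sub, Prod.snd_sub]
    omega
  · rintro w ⟨w1, w2⟩
    refine ⟨?_, w2⟩
    rw [mem_bl] at w1 ⊢
    simp only [xi] at w1
    omega

/-- The second moment inequality. -/
theorem Nf_fin (hQ : 0 < Q) {D : Finset Pt} {η : Cfg} {x : Pt} {m B B' : ℤ} {M : ℕ}
    (hM : 2 * (M : ℤ) ≤ m) (hB : B + m ≤ B') (hx : (x.1 + x.2) % 2 = 0) {a T K : ℝ} (ha : 0 < a)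
    (hT : 0 < T) (hK : 0 < K) (h1 : a * T ≤ Ex Q D η (Nf x m B M))
    (h2 : Ex Q D η (fun ω => Nf x m B M ω * Nf x m B M ω) ≤ K * T ^ 2) :
    a ^ 2 / K ≤ Pr Q D η (Tch x m B') := by
  obtain ⟨t, ht⟩ : ∃ t : ℝ, t = a / (K * T) := ⟨_, rfl⟩
  have ht0 : 0 < t := by rw [ht]; exact div_pos ha (mul_pos hK hT)
  have key : Ex Q D η (fun ω => 2 * t * Nf x m B M ω - t ^ 2 * (Nf x m B M ω * Nf x m B M ω)) ≤
      Pr Q D η (Tch x m B') := by
    refine Ex_mono hQ fun S _ => ?_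
    by_cases hω : cf D η S ∈ Tch x m B'
    · rw [Set.indicator_of_mem hω]
      simp only [Pi.one_apply]
      nlinarith [sq_nonneg (1 - t * Nf x m B M (cf D η S))]
    · rw [Set.indicator_of_notMem hω, Nf_zero hM hB hx hω]
      simp
  rw [Ex_sub, Ex_mul_left, Ex_mul_left] at key
  refine le_trans ?_ key
  have h9 : 2 * t * (a * T) ≤ 2 * t * Ex Q D η (Nf x m B M) :=
    mul_le_mul_of_nonneg_left h1 (by positivity)
  have h10 : t ^ 2 * Ex Q D η (fun ω => Nf x m B M ω * Nf x m B M ω) ≤ t ^ 2 * (K * T ^ 2) :=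
    mul_le_mul_of_nonneg_left h2 (by positivity)
  have h11 : 2 * t * (a * T) - t ^ 2 * (K * T ^ 2) = a ^ 2 / K := by
    rw [ht]
    field_simp
    ring
  linarith

/-- Sum of the pairs, real numbers. -/
theorem sum_pairs {A am S c m l0 : ℝ} (hA : 0 < A) (ham : 0 < am) (hS : 0 ≤ S) (hc : 0 < c)
    (hl0 : 0 < l0) (h : c * (1 + S) ≤ m * am) :
    l0 * (8 * am) + A * am * S ≤ (8 * l0 + A) / c * (m * am) * am := by
  rw [div_mul_eq_mul_div, div_mul_eq_mul_div, le_div_iff₀ hc]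
  have h5 : l0 * (8 * am) + A * am * S ≤ (8 * l0 + A) * am * (1 + S) := by
    have e : (8 * l0 + A) * am * (1 + S) = l0 * (8 * am) + A * am * S +
      (8 * l0 * am * S + A * am) := by ring
    rw [e]
    have : 0 ≤ 8 * l0 * am * S + A * am := by positivity
    linarith
  calc (l0 * (8 * am) + A * am * S) * c ≤ (8 * l0 + A) * am * (1 + S) * c :=
        mul_le_mul_of_nonneg_right h5 hc.le
    _ = (8 * l0 + A) * am * (c * (1 + S)) := by ring
    _ ≤ (8 * l0 + A) * am * (m * am) := mul_le_mul_of_nonneg_left h (by positivity)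
    _ = _ := by ring

theorem fin_arith {m M am G K : ℝ} (hm : m ≤ 2 * (M + 1)) (hM : 0 ≤ M) (ham : 0 < am)
    (hG : 0 ≤ G) (hK : K = 2 * (2 * G)) :
    (M + 1) * (2 * (G * (m * am) * am)) ≤ K * ((M + 1) * am) ^ 2 := by
  have h7 : 0 ≤ (M + 1) * (2 * (G * am * am)) := by positivity
  calc (M + 1) * (2 * (G * (m * am) * am)) = (M + 1) * (2 * (G * am * am)) * m := by ring
    _ ≤ (M + 1) * (2 * (G * am * am)) * (2 * (M + 1)) := mul_le_mul_of_nonneg_left hm h7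
    _ = _ := by rw [hK]; ring

theorem flt_xi {D : Finset Pt} {η : Cfg} {x : Pt} {L m : ℤ} (hL : 2 ≤ L) (hm : 1 ≤ m)
    (hF : Flt D η x (14 * (L * L) * m)) {i : ℕ} (hi : 2 * (i : ℤ) ≤ m) {k : ℤ} (hk : k ≤ 13) :
    Flt D η (xi x i) (L * (L * (k * m))) := by
  refine hF.shift rfl ?_
  have h1 : nm (xi x i - x) ≤ m := by
    rw [nm_le]
    simp only [xi, Prod.fst_sub, Prod.snd_sub]
    omega
  have h0 : 4 ≤ L * L := by nlinarith
  have h2 : L * (L * (k * m)) ≤ L * L * (13 * m) := by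
    rw [← mul_assoc]
    exact mul_le_mul_of_nonneg_left (mul_le_mul_of_nonneg_right hk (by omega)) (by omega)
  have h3 : m ≤ L * L * m := by nlinarith
  have h4 : 14 * (L * L) * m = L * L * (13 * m) + L * L * m := by ring
  omega

theorem pair_phi (hQ : 1 ≤ Q) {L : ℤ} (hL : Rat Q L) {A : ℝ} {l0 : ℤ} (hA : 0 < A)
    (hl0 : 1 ≤ l0)
    (hpair : ∀ (x y : Pt) (m : ℤ) (D : Finset Pt) (η : Cfg), (x.1 + x.2) % 2 = 0 →
      (y.1 + y.2) % 2 = 0 → y.2 = x.2 → Good η → Flt D η x (L * (L * (2 * m))) →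
      Flt D η y (L * (L * (2 * m))) → ∀ l : ℤ, l0 ≤ l → l ≤ m → |y.1 - x.1| = 2 * l →
      Pr Q D η (Am x m ∩ Am y m) ≤ A * (ah Q L l * ah Q L m))
    {x : Pt} {m : ℤ} {D : Finset Pt} {η : Cfg} (hm : 1 ≤ m) (hx : (x.1 + x.2) % 2 = 0)
    (hη : Good η) (hF : Flt D η x (14 * (L * L) * m)) {M : ℕ} (hM : 2 * (M : ℤ) ≤ m) {i j : ℕ}
    (hi : i ≤ M) (hj : j ≤ M) {B : ℤ} :
    Pr Q D η (Hgt (xi x i) m B ∩ Hgt (xi x j) m B) ≤
      phi A (ah Q L m) l0 (fun d => ah Q L d) (if i ≤ j then j - i else i - j) := by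
  have hQ0 : 0 < Q := by linarith
  obtain ⟨l, hl⟩ : ∃ l : ℕ, l = if i ≤ j then j - i else i - j := ⟨_, rfl⟩
  rw [← hl]
  have hlM : l ≤ M := by rw [hl]; split_ifs <;> omega
  by_cases hll : (l : ℤ) < l0
  · refine le_trans ?_ (phi_lt hA.le (ah_nonneg hQ _ _) (fun d => ah_nonneg hQ _ _) hll)
    refine (Pr_mono hQ0 (Set.inter_subset_left.trans (hgt_am (by omega)))).trans ?_
    have hFm := flt_xi (k := 1) hL.1 hm hF (i := i) (by omega) (by norm_num)
    rw [one_mul] at hFm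
    exact (cmp_ah hQ hL hm (xi_par hx i) hη hFm).1
  · rw [phi_ge hll (by omega)]
    have h1 : |(xi x j).1 - (xi x i).1| = 2 * (l : ℤ) := by
      have : (l : ℤ) = |(j : ℤ) - i| := by
        rw [hl]
        split_ifs with h
        · rw [abs_of_nonneg (by omega)]; omega
        · rw [abs_of_nonpos (by omega)]; omega
      rw [this]
      simp only [xi]
      have e : x.1 + 2 * (j : ℤ) - (x.1 + 2 * (i : ℤ)) = 2 * ((j : ℤ) - i) := by ring
      rw [e, abs_mul]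
      rfl
    have h2 := hpair (xi x i) (xi x j) m D η (xi_par hx i) (xi_par hx j) rfl hη
      (flt_xi (k := 2) hL.1 hm hF (by omega) (by norm_num))
      (flt_xi (k := 2) hL.1 hm hF (by omega) (by norm_num))
      l (by omega) (by omega) h1
    exact (Pr_mono hQ0 (Set.inter_subset_inter (hgt_am (by omega)) (hgt_am (by omega)))).trans
      (h2.trans (le_of_eq (by ring)))

/-- **Touching at a free flat side.** -/
theorem srswt_of (hQ : 1 ≤ Q) (hR : RSW Q) {L : ℤ} (hL : Rat Q L) (hreg : RegS Q L) : SRSWt Q := by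
  have hQ0 : 0 < Q := by linarith
  have hL2 := hL.1
  obtain ⟨C⟩ := exists_cs hQ hR
  obtain ⟨C2, n0, hC2, hn0, hd⟩ := dbl_ah hQ hL hreg
  obtain ⟨l0, A, hl0, hA, hpair⟩ := pair_le C hL hC2 hn0 hd
  obtain ⟨m1, a, hm1, ha, hhgt⟩ := hgt_ge C hL hC2 hn0 hd
  obtain ⟨c, n1, hc, hn1, hreg⟩ := hreg
  have hP4 : 4 ≤ L * L := by nlinarith
  have hl0r : (1 : ℝ) ≤ l0 := by exact_mod_cast hl0
  obtain ⟨G, hG⟩ : ∃ G : ℝ, G = (8 * l0 + A) / c := ⟨_, rfl⟩
  have hG0 : 0 < G := by rw [hG]; positivity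
  refine ⟨14 * (L * L), max m1 n1, a ^ 2 / (2 * (2 * G)), by omega, hm1.trans (le_max_left _ _),
    by positivity, fun x m D η hm hx hη hF => ?_⟩
  have hmm1 : m1 ≤ m := (le_max_left _ _).trans hm
  have hmn1 : n1 ≤ m := (le_max_right _ _).trans hm
  have hm0 : 1 ≤ m := hm1.trans hmm1
  have h3 := hreg m hmn1
  obtain ⟨M, hM⟩ : ∃ M : ℕ, M = (m / 2).toNat := ⟨_, rfl⟩
  have hM' : (M : ℤ) = m / 2 := by rw [hM]; exact Int.toNat_of_nonneg (by omega)
  have hM2 : 2 * (M : ℤ) ≤ m := by omega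
  have hS0 : 0 ≤ ∑ d ∈ Finset.Icc 1 m, ah Q L d := Finset.sum_nonneg fun _ _ => ah_nonneg hQ _ _
  have hmr : (1 : ℝ) ≤ m := by exact_mod_cast hm0
  have am0 : 0 < ah Q L m := by
    by_contra hcon
    push Not at hcon
    have : 0 < c * (1 + ∑ d ∈ Finset.Icc 1 m, ah Q L d) := by positivity
    nlinarith
  have h14 : 13 * m + m ≤ 14 * (L * L) * m := by nlinarith
  have hMr : (0 : ℝ) ≤ M := Nat.cast_nonneg M
  have hmM : (m : ℝ) ≤ 2 * ((M : ℝ) + 1) := by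
    have : m ≤ 2 * ((M : ℤ) + 1) := by omega
    exact_mod_cast this
  refine Nf_fin hQ0 (B := 13 * m) (B' := 14 * (L * L) * m) (T := (M + 1) * ah Q L m) hM2 h14 hx ha
    (by positivity) (by positivity) ?_ ?_
  · rw [Nf_Ex]
    calc a * ((M + 1) * ah Q L m) = ∑ _i ∈ Finset.range (M + 1), a * ah Q L m := by
          rw [Finset.sum_const, Finset.card_range, nsmul_eq_mul]
          push_cast
          ring
      _ ≤ _ := by
          refine Finset.sum_le_sum fun i hi => ?_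
          have hi' := Finset.mem_range.1 hi
          exact hhgt (xi x i) m D η (xi_par hx i) hη hmm1
            (flt_xi (k := 13) hL.1 hm0 hF (by omega) le_rfl)
  · rw [Nf_Ex2]
    have h5 : ∀ i ∈ Finset.range (M + 1), ∑ j ∈ Finset.range (M + 1),
        Pr Q D η (Hgt (xi x i) m (13 * m) ∩ Hgt (xi x j) m (13 * m)) ≤
        2 * (G * (m * ah Q L m) * ah Q L m) := by
      intro i hi
      have hi' := Finset.mem_range.1 hi
      refine (Finset.sum_le_sum fun j hj => pair_phi hQ hL hA hl0 hpair hm0 hx hη hF hM2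
        (i := i) (j := j) (by omega) (by have := Finset.mem_range.1 hj; omega)).trans ?_
      refine (sum_diff (phi_nonneg hA.le am0.le fun d => ah_nonneg hQ _ _) M i (by omega)).trans ?_
      refine mul_le_mul_of_nonneg_left ?_ (by norm_num)
      refine (phi_sum (m := m) hA.le am0.le (fun d => ah_nonneg hQ _ _) (by omega)
        (by omega)).trans ?_
      rw [hG]
      exact sum_pairs hA am0 hS0 hc (by linarith) h3
    refine (Finset.sum_le_sum h5).trans ?_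
    rw [Finset.sum_const, Finset.card_range, nsmul_eq_mul]
    push_cast
    exact fin_arith hmM hMr am0 hG0.le rfl


end Vale.Agent.P167.H208
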